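import Mathlib

namespace Vale.Agent.P243

open MeasureTheory
open scoped RealInnerProductSpace ENNReal

/-- Euclidean three-space. -/
abbrev R3 : Type := EuclideanSpace ℝ (Fin 3)

/-- Orthogonal projection to the plane orthogonal to the unit vector `u`. -/
noncomputable def flatten (u x : R3) : R3 := x - ⟪x, u⟫ • u

/-- The planar area of a set `B` in the plane orthogonal to the unit vector `u`, computed as the
volume of the right prism of height one over `B`. -/
noncomputable def planeArea (u : R3) (B : Set R3) : ℝ≥0∞ :=
  volume {x : R3 | flatten u x ∈ B ∧ ⟪x, u⟫ ∈ Set.Icc (0 : ℝ) 1}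

/-- The smallest area of an orthogonal projection. -/
noncomputable def minShadow (K : Set R3) : ℝ≥0∞ :=
  ⨅ v : {v : R3 // ‖v‖ = 1}, planeArea v.1 (flatten v.1 '' K)

/-- A convex body in three-space. -/
def IsConvexBody (K : Set R3) : Prop := IsCompact K ∧ Convex ℝ K ∧ (interior K).Nonempty

/-- A finite covering of `K` by cylinders with unit axis directions. -/
structure Covering (K : Set R3) where
  m : ℕ
  axis : Fin m → R3
  base : Fin m → Set R3
  unit : ∀ i, ‖axis i‖ = 1
  covers : ∀ x ∈ K, ∃ i, flatten (axis i) x ∈ base i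

/-- The total base area of a covering. -/
noncomputable def Covering.area {K : Set R3} (C : Covering K) : ℝ≥0∞ :=
  ∑ i, planeArea (C.axis i) (C.base i)

/-- All axes are parallel to one plane. -/
def Covering.Coplanar {K : Set R3} (C : Covering K) : Prop :=
  ∃ ν : R3, ν ≠ 0 ∧ ∀ i, ⟪C.axis i, ν⟫ = 0

end Vale.Agent.P243
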