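import Mathlib

namespace Vale.Agent.P243

open MeasureTheory Set
open scoped ENNReal

/-- A midpoint-bounded profile has integral at most `L ^ 2 / (2 d)` times its value. -/
theorem profile_bound_left {v : ℝ → ℝ≥0∞} (hv : Measurable v) {a b h y : ℝ} (hy : 0 ≤ y)
    (hah : a < h) (hmid : 2 * h - a ≤ b)
    (hsym : ∀ t ∈ Icc a (2 * h - a), v t + v (2 * h - t) ≤ ENNReal.ofReal (2 * y))
    (hlin : ∀ t ∈ Icc (2 * h - a) b, v t ≤ ENNReal.ofReal (y * ((t - a) / (h - a))))
    (hout : ∀ t ∉ Icc a b, v t = 0) :
    ∫⁻ t, v t ≤ ENNReal.ofReal (y * (b - a) ^ 2 / (2 * (h - a))) := by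
  have hd : 0 < h - a := sub_pos.2 hah
  set c := 2 * h - a with hc
  have hac : a ≤ c := by linarith
  have hsplit : ∫⁻ t, v t ≤ (∫⁻ t in Icc a c, v t) + ∫⁻ t in Icc c b, v t := by
    calc ∫⁻ t, v t = ∫⁻ t in Icc a b, v t := (setLIntegral_eq_of_support_subset fun t ht =>
          by_contra fun hn => ht (hout t hn)).symm
      _ ≤ ∫⁻ t in Icc a c ∪ Icc c b, v t := lintegral_mono_set (by
          intro t ht
          rcases le_total t c with h' | h'
          · exact Or.inl ⟨ht.1, h'⟩
          · exact Or.inr ⟨h', ht.2⟩)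
      _ ≤ _ := lintegral_union_le _ _ _
  have hfirst : (∫⁻ t in Icc a c, v t) ≤ ENNReal.ofReal (2 * y * (h - a)) := by
    have hrefl : ∫⁻ t in Icc a c, v (2 * h - t) = ∫⁻ t in Icc a c, v t := by
      rw [← lintegral_indicator measurableSet_Icc, ← lintegral_indicator measurableSet_Icc,
        ← lintegral_sub_left_eq_self (μ := (volume : Measure ℝ)) ((Icc a c).indicator v) (2 * h)]
      congr 1
      funext t
      by_cases ht : t ∈ Icc a c
      · have ht' : 2 * h - t ∈ Icc a c := ⟨by linarith [ht.2], by linarith [ht.1]⟩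
        rw [indicator_of_mem ht, indicator_of_mem ht']
      · have ht' : 2 * h - t ∉ Icc a c := fun hm =>
          ht ⟨by linarith [hm.2], by linarith [hm.1]⟩
        rw [indicator_of_notMem ht, indicator_of_notMem ht']
    have h2 : (∫⁻ t in Icc a c, v t) + (∫⁻ t in Icc a c, v t) ≤
        ENNReal.ofReal (2 * y) * ENNReal.ofReal (c - a) := by
      nth_rewrite 2 [← hrefl]
      rw [← lintegral_add_left hv]
      calc ∫⁻ t in Icc a c, (v t + v (2 * h - t))
          ≤ ∫⁻ _t in Icc a c, ENNReal.ofReal (2 * y) := setLIntegral_mono measurable_const hsym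
        _ = _ := by rw [setLIntegral_const, Real.volume_Icc]
    rw [← two_mul, ← ENNReal.ofReal_mul (by linarith),
      show 2 * y * (c - a) = 2 * (2 * y * (h - a)) by rw [hc]; ring,
      ENNReal.ofReal_mul zero_le_two, ENNReal.ofReal_ofNat] at h2
    exact (ENNReal.mul_le_mul_iff_right two_ne_zero ENNReal.ofNat_ne_top).1 h2
  have hsecond : (∫⁻ t in Icc c b, v t) ≤
      ENNReal.ofReal (y * ((b - a) ^ 2 - (c - a) ^ 2) / (2 * (h - a))) := by
    calc ∫⁻ t in Icc c b, v t
        ≤ ∫⁻ t in Icc c b, ENNReal.ofReal (y * ((t - a) / (h - a))) :=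
          setLIntegral_mono (by fun_prop) hlin
      _ = ENNReal.ofReal (∫ t in Icc c b, y * ((t - a) / (h - a))) := by
          rw [ofReal_integral_eq_lintegral_ofReal]
          · exact (Continuous.continuousOn (by fun_prop)).integrableOn_Icc
          · rw [Filter.EventuallyLE, ae_restrict_iff' measurableSet_Icc]
            exact Filter.Eventually.of_forall fun t ht =>
              mul_nonneg hy (div_nonneg (by linarith [ht.1]) hd.le)
      _ = _ := by
          congr 1
          rw [integral_Icc_eq_integral_Ioc, ← intervalIntegral.integral_of_le hmid]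
          simp only [mul_div_assoc']
          rw [intervalIntegral.integral_div, intervalIntegral.integral_const_mul,
            intervalIntegral.integral_comp_sub_right (fun t => t), integral_id]
          field_simp
  refine hsplit.trans ((add_le_add hfirst hsecond).trans ?_)
  rw [← ENNReal.ofReal_add (by positivity) (div_nonneg (mul_nonneg hy (by nlinarith)) (by linarith))]
  refine ENNReal.ofReal_le_ofReal (le_of_eq ?_)
  rw [hc]
  field_simp
  ring

/-- The tent factor. -/
noncomputable def tent (a b h : ℝ) : ℝ := 2 * min (h - a) (b - h) / (b - a) ^ 2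

theorem tent_nonneg {a b h : ℝ} (h1 : a ≤ h) (h2 : h ≤ b) : 0 ≤ tent a b h :=
  div_nonneg (mul_nonneg zero_le_two (le_min (by linarith) (by linarith))) (sq_nonneg _)

/-- A concave profile is at least its integral times the tent. -/
theorem profile_bound {v : ℝ → ℝ≥0∞} (hv : Measurable v) {a b h y : ℝ} (hy : 0 ≤ y)
    (hah : a < h) (hhb : h < b)
    (hsym : ∀ t ∈ Icc a b, 2 * h - t ∈ Icc a b → v t + v (2 * h - t) ≤ ENNReal.ofReal (2 * y))
    (hright : ∀ t ∈ Icc h b, v t ≤ ENNReal.ofReal (y * ((t - a) / (h - a))))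
    (hleft : ∀ t ∈ Icc a h, v t ≤ ENNReal.ofReal (y * ((b - t) / (b - h))))
    (hout : ∀ t ∉ Icc a b, v t = 0) :
    ENNReal.ofReal (tent a b h) * ∫⁻ t, v t ≤ ENNReal.ofReal y := by
  have hL : 0 < b - a := by linarith
  rcases le_total (2 * h - a) b with hm | hm
  · have h1 := profile_bound_left hv hy hah hm
      (fun t ht => hsym t ⟨ht.1, ht.2.trans hm⟩ ⟨by linarith [ht.2], by linarith [ht.1]⟩)
      (fun t ht => hright t ⟨by linarith [ht.1], ht.2⟩) hout
    refine (mul_le_mul' le_rfl h1).trans ?_
    rw [← ENNReal.ofReal_mul (tent_nonneg hah.le hhb.le), tent,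
      min_eq_left (show h - a ≤ b - h by linarith)]
    refine ENNReal.ofReal_le_ofReal (le_of_eq ?_)
    have := sub_pos.2 hah
    field_simp
  · have h1 := profile_bound_left (v := fun t => v (-t)) (hv.comp measurable_neg) (a := -b)
      (b := -a) (h := -h) hy (by linarith) (by linarith)
      (fun t ht => by
        have := hsym (-t) ⟨by linarith [ht.2], by linarith [ht.1]⟩
          ⟨by linarith [ht.1], by linarith [ht.2]⟩
        convert this using 3
        ring)
      (fun t ht => by
        have := hleft (-t) ⟨by linarith [ht.2], by linarith [ht.1]⟩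
        convert this using 4
        · ring
        · ring)
      (fun t ht => hout (-t) fun hm => ht ⟨by linarith [hm.2], by linarith [hm.1]⟩)
    rw [lintegral_neg_eq_self] at h1
    refine (mul_le_mul' le_rfl h1).trans ?_
    rw [← ENNReal.ofReal_mul (tent_nonneg hah.le hhb.le), tent,
      min_eq_right (show b - h ≤ h - a by linarith)]
    refine ENNReal.ofReal_le_ofReal (le_of_eq ?_)
    have := sub_pos.2 hhb
    have e1 : -a - -b = b - a := by ring
    have e2 : -h - -b = b - h := by ring
    rw [e1, e2]
    field_simp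

theorem lintegral_tent {a b : ℝ} (hab : a < b) :
    ∫⁻ h in Icc a b, ENNReal.ofReal (tent a b h) = 2⁻¹ := by
  have hc : Continuous (tent a b) := by unfold tent; fun_prop
  rw [← ofReal_integral_eq_lintegral_ofReal hc.continuousOn.integrableOn_Icc]
  swap
  · rw [Filter.EventuallyLE, ae_restrict_iff' measurableSet_Icc]
    exact Filter.Eventually.of_forall fun t ht => tent_nonneg ht.1 ht.2
  rw [integral_Icc_eq_integral_Ioc, ← intervalIntegral.integral_of_le hab.le]
  set c := (a + b) / 2 with hcdef
  rw [← intervalIntegral.integral_add_adjacent_intervals (b := c)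
    (hc.intervalIntegrable _ _) (hc.intervalIntegrable _ _)]
  have e1 : ∫ t in a..c, tent a b t = ∫ t in a..c, 2 * (t - a) / (b - a) ^ 2 := by
    refine intervalIntegral.integral_congr fun t ht => ?_
    rw [uIcc_of_le (by linarith)] at ht
    simp only [tent]
    rw [min_eq_left (by linarith [ht.2])]
  have e2 : ∫ t in c..b, tent a b t = ∫ t in c..b, 2 * (b - t) / (b - a) ^ 2 := by
    refine intervalIntegral.integral_congr fun t ht => ?_
    rw [uIcc_of_le (by linarith)] at ht
    simp only [tent]
    rw [min_eq_right (by linarith [ht.1])]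
  rw [e1, e2, intervalIntegral.integral_div, intervalIntegral.integral_div,
    intervalIntegral.integral_const_mul, intervalIntegral.integral_const_mul,
    intervalIntegral.integral_comp_sub_right (fun t => t),
    intervalIntegral.integral_comp_sub_left (fun t => t), integral_id, integral_id]
  rw [show 2 * (((c - a) ^ 2 - (a - a) ^ 2) / 2) / (b - a) ^ 2 +
      2 * (((b - c) ^ 2 - (b - b) ^ 2) / 2) / (b - a) ^ 2 = (2 : ℝ)⁻¹ by
    have : b - a ≠ 0 := (sub_pos.2 hab).ne'
    rw [hcdef]; field_simp; ring]
  rw [ENNReal.ofReal_inv_of_pos two_pos, ENNReal.ofReal_ofNat]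

end Vale.Agent.P243
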