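import Mathlib

namespace Vale.Agent.P243

open Set MeasureTheory
open scoped RealInnerProductSpace ENNReal

variable {E : Type*} [NormedAddCommGroup E] [InnerProductSpace ℝ E]

/-- Every unit direction sees width at least `w`. -/
def WidthGE (K : Set E) (w : ℝ) : Prop :=
  ∀ n : E, ‖n‖ = 1 → ∃ x ∈ K, ∃ y ∈ K, w ≤ ⟪x - y, n⟫

/-- A body of width at least `w` has a chord of length `w` in every direction. -/
theorem exists_chord [CompleteSpace E] {K : Set E} (hc : IsCompact K) (hconv : Convex ℝ K)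
    {w : ℝ} (hw : WidthGE K w) (hw0 : 0 ≤ w) (hne : K.Nonempty) {u : E} (hu : ‖u‖ = 1) :
    ∃ p ∈ K, p + w • u ∈ K := by
  by_contra hno
  simp only [not_exists, not_and] at hno
  have hc2 : IsCompact ((fun x => x + w • u) '' K) := hc.image (continuous_id.add continuous_const)
  have hconv2 : Convex ℝ ((fun x => x + w • u) '' K) := by
    have h := hconv.translate (w • u)
    simpa [add_comm] using h
  have hdis : Disjoint ((fun x => x + w • u) '' K) K := by
    rw [Set.disjoint_left]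
    rintro _ ⟨x, hx, rfl⟩ hxK
    exact hno x hx hxK
  obtain ⟨f, a, b, h1, hab, h2⟩ :=
    geometric_hahn_banach_compact_closed hconv2 hc2 hconv hc.isClosed hdis
  set v := (InnerProductSpace.toDual ℝ E).symm f with hv
  have hf : ∀ x, f x = ⟪v, x⟫ := fun x => by
    rw [hv, InnerProductSpace.toDual_symm_apply]
  have hv0 : v ≠ 0 := by
    intro h0
    obtain ⟨x, hx⟩ := hne
    have e1 := h1 _ ⟨x, hx, rfl⟩
    have e2 := h2 x hx
    rw [hf, h0, inner_zero_left] at e1 e2
    linarith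
  have hvn : 0 < ‖v‖ := norm_pos_iff.2 hv0
  obtain ⟨x, hx, y, hy, hxy⟩ := hw (‖v‖⁻¹ • v) (norm_smul_inv_norm hv0)
  have e1 := h1 _ ⟨x, hx, rfl⟩
  have e2 := h2 y hy
  rw [hf, inner_add_right, real_inner_smul_right] at e1
  rw [hf] at e2
  rw [real_inner_smul_right, real_inner_comm, inner_sub_right] at hxy
  have e3 : -‖v‖ ≤ ⟪v, u⟫ := by
    have := abs_le.1 (abs_real_inner_le_norm v u)
    rw [hu, mul_one] at this
    exact this.1
  have e4 : -(w * ‖v‖) ≤ w * ⟪v, u⟫ := by
    have := mul_le_mul_of_nonneg_left e3 hw0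
    linarith
  rw [← div_eq_inv_mul, le_div_iff₀ hvn] at hxy
  linarith

/-- Intersecting a body with two translates loses at most their distance in width. -/
theorem width_inter [CompleteSpace E] {K : Set E} (hc : IsCompact K) (hconv : Convex ℝ K)
    {w t : ℝ} (hw : WidthGE K w) (hw0 : 0 < w) (ht : 0 ≤ t) (htw : 2 * t ≤ w) (hne : K.Nonempty)
    {u : E} (hu : ‖u‖ = 1) :
    let L := {x : E | x + t • u ∈ K ∧ x - t • u ∈ K}
    IsCompact L ∧ Convex ℝ L ∧ L.Nonempty ∧ WidthGE L (w - 2 * t) := by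
  intro L
  obtain ⟨p, hp, hp'⟩ := exists_chord hc hconv hw hw0.le hne hu
  set s := 2 * t / w with hs
  have hs0 : 0 ≤ s := by positivity
  have hs1 : s ≤ 1 := (div_le_one hw0).2 htw
  have hsw : s * w = 2 * t := div_mul_cancel₀ _ hw0.ne'
  have hmem : ∀ x ∈ K, (1 - s) • x + s • p + t • u ∈ L := by
    intro x hx
    refine ⟨?_, ?_⟩
    · have := hconv hx hp' (show (0 : ℝ) ≤ 1 - s by linarith) hs0 (by ring)
      convert this using 1
      rw [smul_add, smul_smul, hsw, two_mul, add_smul]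
      abel
    · have := hconv hx hp (show (0 : ℝ) ≤ 1 - s by linarith) hs0 (by ring)
      convert this using 1
      abel
  refine ⟨?_, ?_, ?_, ?_⟩
  · have : L = (fun x => x + t • u) ⁻¹' K ∩ (fun x => x - t • u) ⁻¹' K := rfl
    refine IsCompact.of_isClosed_subset (hc.image (continuous_id.sub (continuous_const (y := t • u))))
      ?_ ?_
    · rw [this]
      exact (hc.isClosed.preimage (continuous_id.add continuous_const)).inter
        (hc.isClosed.preimage (continuous_id.sub continuous_const))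
    · intro x hx
      exact ⟨x + t • u, hx.1, by simp⟩
  · intro x hx y hy a b ha hb hab
    refine ⟨?_, ?_⟩
    · have := hconv hx.1 hy.1 ha hb hab
      convert this using 1
      rw [smul_add, smul_add, add_add_add_comm, ← add_smul, hab, one_smul]
    · have := hconv hx.2 hy.2 ha hb hab
      convert this using 1
      rw [smul_sub, smul_sub, sub_add_sub_comm, ← add_smul, hab, one_smul]
  · obtain ⟨x, hx⟩ := hne
    exact ⟨_, hmem x hx⟩
  · intro n hn
    obtain ⟨x, hx, y, hy, hxy⟩ := hw n hn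
    refine ⟨_, hmem x hx, _, hmem y hy, ?_⟩
    rw [show (1 - s) • x + s • p + t • u - ((1 - s) • y + s • p + t • u) = (1 - s) • (x - y) by
      rw [smul_sub]; abel, real_inner_smul_left]
    calc w - 2 * t = (1 - s) * w := by linarith
      _ ≤ _ := mul_le_mul_of_nonneg_left hxy (by linarith)

/-- All signed sums stay inside a suitable translate. -/
theorem exists_center [CompleteSpace E] :
    ∀ (m : ℕ) (u : Fin m → E) (t : Fin m → ℝ) (K : Set E) (w : ℝ), IsCompact K → Convex ℝ K →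
      K.Nonempty → WidthGE K w → (∀ i, ‖u i‖ = 1) → (∀ i, 0 ≤ t i) → 2 * ∑ i, t i < w →
      ∃ x, ∀ ε : Fin m → Bool, x + ∑ i, ((if ε i then 1 else -1 : ℝ) * t i) • u i ∈ K := by
  intro m
  induction m with
  | zero =>
      intro u t K w _ _ hne _ _ _ _
      obtain ⟨x, hx⟩ := hne
      exact ⟨x, fun _ => by simpa using hx⟩
  | succ m ih =>
      intro u t K w hc hconv hne hw hu ht hsum
      rw [Fin.sum_univ_succ] at hsum
      have hrest : 0 ≤ ∑ i : Fin m, t i.succ := Finset.sum_nonneg fun i _ => ht _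
      obtain ⟨hLc, hLconv, hLne, hLw⟩ :=
        width_inter hc hconv hw (by linarith [ht 0]) (ht 0) (by linarith) hne (hu 0)
      obtain ⟨x, hx⟩ := ih (fun i => u i.succ) (fun i => t i.succ) _ (w - 2 * t 0) hLc hLconv hLne
        hLw (fun i => hu _) (fun i => ht _) (by linarith)
      refine ⟨x, fun ε => ?_⟩
      have h := hx fun i => ε i.succ
      rw [Fin.sum_univ_succ]
      cases hε : ε 0
      · have h2 := h.2
        convert h2 using 1
        simp
        abel
      · have h1 := h.1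
        convert h1 using 1
        simp
        abel

/-- Bang's plank theorem: open planks of total width below the width do not cover. -/
theorem bang [CompleteSpace E] {m : ℕ} (u : Fin m → E) (t c : Fin m → ℝ) {K : Set E} {w : ℝ}
    (hc : IsCompact K) (hconv : Convex ℝ K) (hne : K.Nonempty) (hw : WidthGE K w)
    (hu : ∀ i, ‖u i‖ = 1) (ht : ∀ i, 0 < t i) (hsum : 2 * ∑ i, t i < w) :
    ∃ x ∈ K, ∀ i, t i ≤ |⟪x, u i⟫ - c i| := by
  obtain ⟨x, hx⟩ := exists_center m u t K w hc hconv hne hw hu (fun i => (ht i).le) hsum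
  let sg : Bool → ℝ := fun b => if b then 1 else -1
  let S : (Fin m → Bool) → E := fun ε => ∑ i, (sg (ε i) * t i) • u i
  let Φ : (Fin m → Bool) → ℝ := fun ε =>
    ‖S ε‖ ^ 2 - 2 * ∑ i, sg (ε i) * t i * (c i - ⟪x, u i⟫)
  obtain ⟨ε, hε⟩ := Finite.exists_max Φ
  refine ⟨x + S ε, hx ε, fun i => ?_⟩
  let ε' := Function.update ε i (!ε i)
  have hsg : sg (!ε i) = -sg (ε i) := by cases ε i <;> simp [sg]
  have hsq : sg (ε i) * sg (ε i) = 1 := by cases ε i <;> simp [sg]
  have habs : |sg (ε i)| = 1 := by cases ε i <;> simp [sg]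
  have hS : S ε' = S ε - (2 * sg (ε i) * t i) • u i := by
    rw [eq_sub_iff_add_eq]
    simp only [S]
    rw [← Finset.add_sum_erase _ _ (Finset.mem_univ i),
      ← Finset.add_sum_erase _ (fun j => (sg (ε j) * t j) • u j) (Finset.mem_univ i)]
    have hrest : ∑ j ∈ Finset.univ.erase i, (sg (ε' j) * t j) • u j =
        ∑ j ∈ Finset.univ.erase i, (sg (ε j) * t j) • u j :=
      Finset.sum_congr rfl fun j hj => by simp [ε', (Finset.mem_erase.1 hj).1]
    rw [hrest, show sg (ε' i) = -sg (ε i) by simp [ε', hsg]]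
    rw [neg_mul, neg_smul, mul_assoc, two_mul, add_smul]
    abel
  have hlin : ∑ j, sg (ε' j) * t j * (c j - ⟪x, u j⟫) =
      ∑ j, sg (ε j) * t j * (c j - ⟪x, u j⟫) - 2 * sg (ε i) * t i * (c i - ⟪x, u i⟫) := by
    rw [eq_sub_iff_add_eq, ← Finset.add_sum_erase _ _ (Finset.mem_univ i),
      ← Finset.add_sum_erase _ (fun j => sg (ε j) * t j * (c j - ⟪x, u j⟫)) (Finset.mem_univ i)]
    have hrest : ∑ j ∈ Finset.univ.erase i, sg (ε' j) * t j * (c j - ⟪x, u j⟫) =
        ∑ j ∈ Finset.univ.erase i, sg (ε j) * t j * (c j - ⟪x, u j⟫) :=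
      Finset.sum_congr rfl fun j hj => by simp [ε', (Finset.mem_erase.1 hj).1]
    rw [hrest, show sg (ε' i) = -sg (ε i) by simp [ε', hsg]]
    ring
  have hmax := hε ε'
  simp only [Φ, hlin, hS, norm_sub_sq_real, real_inner_smul_right, norm_smul, hu i, mul_one,
    Real.norm_eq_abs, sq_abs] at hmax
  have key : t i ≤ sg (ε i) * (⟪S ε, u i⟫ + ⟪x, u i⟫ - c i) := by
    have h4 : (2 * sg (ε i) * t i) ^ 2 = 4 * t i ^ 2 := by
      rw [mul_pow, mul_pow, sq (sg (ε i)), hsq]; ring
    rw [h4] at hmax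
    refine le_of_mul_le_mul_left ?_ (ht i)
    linarith
  rw [inner_add_left]
  calc t i ≤ sg (ε i) * (⟪S ε, u i⟫ + ⟪x, u i⟫ - c i) := key
    _ ≤ |sg (ε i) * (⟪S ε, u i⟫ + ⟪x, u i⟫ - c i)| := le_abs_self _
    _ = _ := by rw [abs_mul, habs, one_mul, add_comm ⟪S ε, u i⟫]

/-- Disjoint grid cells inside a set. -/
theorem grid_volume {g : ℝ} (hg0 : 0 < g) (Z : Finset ℤ) (U : Set ℝ)
    (hZ : ∀ k ∈ Z, Ico ((k : ℝ) * g) (((k : ℝ) + 1) * g) ⊆ U) :
    ENNReal.ofReal ((Z.card : ℝ) * g) ≤ volume U := by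
  have hdis : Set.PairwiseDisjoint (↑Z : Set ℤ)
      (fun k : ℤ => Ico ((k : ℝ) * g) (((k : ℝ) + 1) * g)) := by
    intro a _ b _ hab
    rw [Function.onFun, Set.disjoint_left]
    rintro p ⟨ha1, ha2⟩ ⟨hb1, hb2⟩
    apply hab
    have h1 : (a : ℝ) < (b : ℝ) + 1 := lt_of_mul_lt_mul_right (ha1.trans_lt hb2) hg0.le
    have h2 : (b : ℝ) < (a : ℝ) + 1 := lt_of_mul_lt_mul_right (hb1.trans_lt ha2) hg0.le
    have h1' : a < b + 1 := by exact_mod_cast h1
    have h2' : b < a + 1 := by exact_mod_cast h2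
    omega
  calc ENNReal.ofReal ((Z.card : ℝ) * g)
      = ∑ k ∈ Z, volume (Ico ((k : ℝ) * g) (((k : ℝ) + 1) * g)) := by
        rw [Finset.sum_congr rfl fun (k : ℤ) _ => (by
          rw [Real.volume_Ico]; congr 1; ring :
            volume (Ico ((k : ℝ) * g) (((k : ℝ) + 1) * g)) = ENNReal.ofReal g)]
        rw [Finset.sum_const, nsmul_eq_mul, ENNReal.ofReal_mul (Nat.cast_nonneg _),
          ENNReal.ofReal_natCast]
    _ = volume (⋃ k ∈ Z, Ico ((k : ℝ) * g) (((k : ℝ) + 1) * g)) :=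
        (measure_biUnion_finset hdis fun _ _ => measurableSet_Ico).symm
    _ ≤ volume U := measure_mono (Set.iUnion₂_subset hZ)

/-- Bang's theorem for planks over arbitrary subsets of the line. -/
theorem bang_measure [CompleteSpace E] {ι : Type} [Fintype ι] (u : ι → E) (W : ι → Set ℝ)
    {K : Set E} {w : ℝ} (hc : IsCompact K) (hconv : Convex ℝ K) (hne : K.Nonempty)
    (hw : WidthGE K w) (hu : ∀ i, ‖u i‖ = 1) (hcov : ∀ z ∈ K, ∃ i, ⟪z, u i⟫ ∈ W i) :
    ENNReal.ofReal w ≤ ∑ i, volume (W i) := by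
  classical
  by_contra hlt
  rw [not_le] at hlt
  have hfin : ∀ i, volume (W i) ≠ ⊤ := fun i => ne_top_of_lt (lt_of_le_of_lt
    (Finset.single_le_sum (f := fun j => volume (W j)) (fun j _ => zero_le) (Finset.mem_univ i)) hlt)
  set σ := (∑ i, volume (W i)).toReal with hσ
  have hw0 : 0 < w := by
    by_contra h0
    rw [ENNReal.ofReal_eq_zero.2 (not_lt.1 h0)] at hlt
    simp at hlt
  have hσw : σ < w := by
    rw [hσ, ← ENNReal.toReal_ofReal hw0.le]
    exact ENNReal.toReal_strict_mono ENNReal.ofReal_ne_top hlt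
  set γ := (w - σ) / (2 * (Fintype.card ι + 1)) with hγ
  have hγ0 : 0 < γ := div_pos (sub_pos.2 hσw) (by positivity)
  have hU : ∀ i, ∃ U ⊇ W i, IsOpen U ∧ volume U < volume (W i) + ENNReal.ofReal γ := fun i =>
    Set.exists_isOpen_lt_add (W i) (hfin i) (by simp [hγ0])
  choose U hWU hUo hUlt using hU
  obtain ⟨δ, hδ, hball⟩ := lebesgue_number_lemma_of_metric hc
    (c := fun i => {z : E | ⟪z, u i⟫ ∈ U i})
    (fun i => (hUo i).preimage (continuous_id.inner continuous_const))
    (fun z hz => by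
      obtain ⟨i, hi⟩ := hcov z hz
      exact mem_iUnion.2 ⟨i, hWU i hi⟩)
  obtain ⟨R, hR⟩ := hc.isBounded.exists_norm_le
  set g := δ / 2 with hg
  have hg0 : 0 < g := by positivity
  let Z : ι → Finset ℤ := fun i =>
    (Finset.Icc ⌊-R / g⌋ ⌈R / g⌉).filter
      fun k : ℤ => Ico ((k : ℝ) * g) (((k : ℝ) + 1) * g) ⊆ U i
  have hZ : ∀ i, ((Z i).card : ℝ) * g ≤ (volume (W i)).toReal + γ := fun i => by
    have h3 := (grid_volume hg0 (Z i) (U i) fun k hk => (Finset.mem_filter.1 hk).2).trans (hUlt i).le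
    rwa [← ENNReal.ofReal_toReal (hfin i), ← ENNReal.ofReal_add ENNReal.toReal_nonneg hγ0.le,
      ENNReal.ofReal_le_ofReal_iff (add_nonneg ENNReal.toReal_nonneg hγ0.le)] at h3
  let J := (i : ι) × {k // k ∈ Z i}
  let e := Fintype.equivFin J
  set total := ∑ i, ((Z i).card : ℝ) * g with htot
  have htotal : total < w := by
    have h1 : total ≤ σ + (Fintype.card ι) * γ := by
      calc total ≤ ∑ i, ((volume (W i)).toReal + γ) := Finset.sum_le_sum fun i _ => hZ i
        _ = σ + (Fintype.card ι) * γ := by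
          rw [Finset.sum_add_distrib, hσ, ENNReal.toReal_sum (fun i _ => hfin i)]
          simp
    have h2 : (Fintype.card ι : ℝ) * γ < w - σ := by
      rw [hγ, mul_div_assoc', div_lt_iff₀ (by positivity)]
      nlinarith [sub_pos.2 hσw, (Fintype.card ι).cast_nonneg (α := ℝ)]
    linarith
  have htot0 : 0 ≤ total := Finset.sum_nonneg fun i _ => mul_nonneg (Nat.cast_nonneg _) hg0.le
  clear_value total
  obtain ⟨fac, hf1, hf2⟩ : ∃ fac : ℝ, 1 < fac ∧ fac * total < w := by
    refine ⟨1 + (w - total) / (2 * (total + 1)), ?_, ?_⟩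
    · have : 0 < (w - total) / (2 * (total + 1)) := div_pos (sub_pos.2 htotal) (mul_pos two_pos (by linarith))
      linarith
    · have h : (w - total) / (2 * (total + 1)) * total < w - total := by
        rw [div_mul_eq_mul_div, div_lt_iff₀ (mul_pos two_pos (by linarith))]
        nlinarith [sub_pos.2 htotal]
      linarith
  have hcount : ∑ _j : Fin (Fintype.card J), g = total := by
    simp [htot, J, Finset.sum_mul]
  obtain ⟨x, hx, hout⟩ := bang (fun j => u (e.symm j).1) (fun _ => fac * g / 2)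
    (fun j => (((e.symm j).2.1 : ℝ) + 1 / 2) * g) hc hconv hne hw (fun j => hu _)
    (fun _ => by positivity)
    (by
      rw [← Finset.sum_div, ← Finset.mul_sum, hcount]
      linarith)
  obtain ⟨i, hi⟩ := hball x hx
  set p := ⟪x, u i⟫ with hp
  set k := ⌊p / g⌋ with hk
  have hk1 : (k : ℝ) * g ≤ p := (le_div_iff₀ hg0).1 (Int.floor_le _)
  have hk2 : p < ((k : ℝ) + 1) * g := (div_lt_iff₀ hg0).1 (Int.lt_floor_add_one _)
  have hkZ : k ∈ Z i := by
    have habs : |p| ≤ R := by
      have := abs_real_inner_le_norm x (u i)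
      rw [hu i, mul_one] at this
      exact this.trans (hR x hx)
    rw [abs_le] at habs
    refine Finset.mem_filter.2 ⟨Finset.mem_Icc.2 ⟨Int.floor_le_floor (by gcongr; exact habs.1),
      (Int.floor_le_ceil _).trans' (Int.floor_le_floor (by gcongr; exact habs.2))⟩, ?_⟩
    intro q hq
    have hmem : x + (q - p) • u i ∈ Metric.ball x δ := by
      rw [Metric.mem_ball, dist_eq_norm, add_sub_cancel_left, norm_smul, hu i, mul_one,
        Real.norm_eq_abs, abs_lt]
      constructor <;> linarith [hq.1, hq.2]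
    have h5 : ⟪x + (q - p) • u i, u i⟫ ∈ U i := hi hmem
    rwa [inner_add_left, real_inner_smul_left, real_inner_self_eq_norm_sq, hu i, one_pow, mul_one,
      ← hp, add_sub_cancel] at h5
  have hcell : ∀ y : J, fac * g / 2 ≤ |⟪x, u y.1⟫ - ((y.2.1 : ℝ) + 1 / 2) * g| := fun y => by
    have h7 := hout (e y)
    rwa [Equiv.symm_apply_apply] at h7
  have h := hcell ⟨i, k, hkZ⟩
  dsimp only at h
  rw [← hp] at h
  have h' : |p - ((k : ℝ) + 1 / 2) * g| ≤ g / 2 := by
    rw [abs_le]; constructor <;> linarith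
  have : g / 2 < fac * g / 2 := by
    have := mul_lt_mul_of_pos_right hf1 hg0
    linarith
  linarith

end Vale.Agent.P243
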