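import Mathlib
import Vale.Agent.P243.Plank
import Vale.Agent.P243.Concave
import Vale.Agent.P243.Body

namespace Vale.Agent.P243

open MeasureTheory Set Module
open scoped RealInnerProductSpace ENNReal

theorem exists_third {a b : R3} :
    ∃ c : R3, ‖c‖ = 1 ∧ ⟪a, c⟫ = 0 ∧ ⟪b, c⟫ = 0 := by
  have h : finrank ℝ (Submodule.span ℝ ({a, b} : Set R3)) < finrank ℝ R3 := by
    have := finrank_span_le_card (R := ℝ) ({a, b} : Set R3)
    rw [finrank_euclideanSpace_fin]
    have h2 : ({a, b} : Set R3).toFinset.card ≤ 2 := by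
      rw [Set.toFinset_insert, Set.toFinset_singleton]
      exact Finset.card_insert_le _ _
    omega
  have hne : (Submodule.span ℝ ({a, b} : Set R3))ᗮ ≠ ⊥ := by
    intro hb
    rw [Submodule.orthogonal_eq_bot_iff] at hb
    rw [hb, finrank_top] at h
    exact lt_irrefl _ h
  obtain ⟨c, hc, hc0⟩ := Submodule.exists_mem_ne_zero_of_ne_bot hne
  refine ⟨‖c‖⁻¹ • c, norm_smul_inv_norm hc0, ?_, ?_⟩ <;>
    rw [real_inner_smul_right, Submodule.mem_orthogonal _ _ |>.1 hc _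
      (Submodule.subset_span (by simp)), mul_zero]

/-- The point with planar coordinates `q` in the frame `ν, w`. -/
noncomputable def place (ν w : R3) (q : ℝ × ℝ) : R3 := q.1 • ν + q.2 • w

theorem continuous_place (ν w : R3) : Continuous (place ν w) := by
  unfold place; fun_prop

/-- An orthonormal frame of three-space. -/
structure Frame (ν w u : R3) : Prop where
  hν : ‖ν‖ = 1
  hw : ‖w‖ = 1
  hu : ‖u‖ = 1
  hνw : ⟪ν, w⟫ = 0
  hνu : ⟪ν, u⟫ = 0
  hwu : ⟪w, u⟫ = 0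

theorem Frame.basis {ν w u : R3} (F : Frame ν w u) :
    ∃ B : OrthonormalBasis (Fin 3) ℝ R3, B 0 = ν ∧ B 1 = w ∧ B 2 = u := by
  obtain ⟨hν, hw, hu, hνw, hνu, hwu⟩ := F
  let e : Fin 3 → R3 := ![ν, w, u]
  have hon : Orthonormal ℝ e := by
    refine ⟨fun i => ?_, ?_⟩
    · fin_cases i <;> simp [e, hν, hw, hu]
    · intro i j hij
      fin_cases i <;> fin_cases j <;> first
        | exact absurd rfl hij
        | simp [e, hνw, hνu, hwu, real_inner_comm ν w, real_inner_comm ν u, real_inner_comm w u]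
  exact ⟨OrthonormalBasis.mk hon
    (by rw [hon.linearIndependent.span_eq_top_of_card_eq_finrank (by simp)]),
    by simp [e], by simp [e], by simp [e]⟩

theorem Frame.flatten_eq {ν w u : R3} (F : Frame ν w u) (x : R3) :
    flatten u x = place ν w (⟪x, ν⟫, ⟪x, w⟫) := by
  obtain ⟨B, h0, h1, h2⟩ := F.basis
  have h := B.sum_repr' x
  rw [Fin.sum_univ_three, h0, h1, h2, real_inner_comm x ν, real_inner_comm x w,
    real_inner_comm x u] at h
  rw [flatten, place, sub_eq_iff_eq_add]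
  exact h.symm

theorem Frame.inner_place {ν w u : R3} (F : Frame ν w u) (q : ℝ × ℝ) :
    ⟪place ν w q, ν⟫ = q.1 ∧ ⟪place ν w q, w⟫ = q.2 := by
  simp [place, inner_add_left, real_inner_smul_left, F.hν, F.hw, F.hνw, real_inner_comm ν w]

/-- The area of a planar set, computed in frame coordinates. -/
theorem Frame.planeArea_eq {ν w u : R3} (F : Frame ν w u) (B : Set R3) :
    planeArea u B = volume (place ν w ⁻¹' B) := by
  obtain ⟨b, h0, h1, h2⟩ := F.basis
  let Ψ : R3 ≃ᵐ ℝ × (ℝ × ℝ) :=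
    ((b.measurableEquiv.trans (MeasurableEquiv.toLp 2 _).symm).trans
      (MeasurableEquiv.piFinSuccAbove (fun _ => ℝ) 2)).trans
      ((MeasurableEquiv.refl ℝ).prodCongr MeasurableEquiv.finTwoArrow)
  have hΨ : MeasurePreserving Ψ volume volume :=
    ((b.measurePreserving_measurableEquiv.trans (PiLp.volume_preserving_ofLp (Fin 3))).trans
      (volume_preserving_piFinSuccAbove (fun _ => ℝ) 2)).trans
      ((MeasurePreserving.id volume).prod (volume_preserving_finTwoArrow ℝ))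
  have hval : ∀ x, Ψ x = (⟪x, u⟫, (⟪x, ν⟫, ⟪x, w⟫)) := by
    intro x
    have key : ∀ i, b.repr x i = ⟪x, b i⟫ := fun i => by
      rw [b.repr_apply_apply, real_inner_comm]
    have k0 := key 0
    have k1 := key 1
    have k2 := key 2
    rw [h0] at k0
    rw [h1] at k1
    rw [h2] at k2
    exact Prod.ext k2 (Prod.ext k0 k1)
  have hset : {x : R3 | flatten u x ∈ B ∧ ⟪x, u⟫ ∈ Icc (0 : ℝ) 1} =
      Ψ ⁻¹' (Icc (0 : ℝ) 1 ×ˢ (place ν w ⁻¹' B)) := by
    ext x
    simp only [mem_setOf_eq, mem_preimage, hval, mem_prod, F.flatten_eq]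
    exact and_comm
  rw [planeArea, hset, hΨ.measure_preimage_equiv, Measure.volume_eq_prod, Measure.prod_prod,
    Real.volume_Icc]
  simp

/-- The values of `⟪·, n⟫` on the slice of `K` at height `h`. -/
def sliceImage (K : Set R3) (ν n : R3) (h : ℝ) : Set ℝ :=
  (fun x => ⟪x, n⟫) '' {x ∈ K | ⟪x, ν⟫ = h}

/-- A slice is at least as wide as the tent times the smallest projected area. -/
theorem slice_wide {K : Set R3} (hc : IsCompact K) (hconv : Convex ℝ K) {ν n : R3}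
    (hν : ‖ν‖ = 1) (hn : ‖n‖ = 1) (hνn : ⟪ν, n⟫ = 0) {a b h : ℝ}
    (ha : ∃ x ∈ K, ⟪x, ν⟫ = a) (hb : ∃ x ∈ K, ⟪x, ν⟫ = b)
    (hrange : ∀ x ∈ K, ⟪x, ν⟫ ∈ Icc a b) (hah : a < h) (hhb : h < b) :
    ∃ x ∈ K, ∃ y ∈ K, ⟪x, ν⟫ = h ∧ ⟪y, ν⟫ = h ∧
      ENNReal.ofReal (tent a b h) * minShadow K ≤ ENNReal.ofReal ⟪x - y, n⟫ := by
  obtain ⟨xa, hxa, hxa'⟩ := ha
  obtain ⟨xb, hxb, hxb'⟩ := hb
  obtain ⟨v, hv, hνv, hnv⟩ := exists_third (a := ν) (b := n)
  have hF : Frame ν n v := ⟨hν, hn, hv, hνn, hνv, hnv⟩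
  have hlevel : ∀ (p q : R3) (s t : ℝ), s + t = 1 →
      ⟪s • p + t • q, ν⟫ = s * ⟪p, ν⟫ + t * ⟪q, ν⟫ := fun p q s t _ => by
    rw [inner_add_left, real_inner_smul_left, real_inner_smul_left]
  set S := {x ∈ K | ⟪x, ν⟫ = h} with hS
  have hSc : IsCompact S := hc.inter_right (isClosed_eq (continuous_id.inner continuous_const) continuous_const)
  have hba : 0 < b - a := by linarith
  have hSne : S.Nonempty := by
    refine ⟨((b - h) / (b - a)) • xa + ((h - a) / (b - a)) • xb,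
      hconv hxa hxb (div_nonneg (by linarith) hba.le) (div_nonneg (by linarith) hba.le)
        (by rw [← add_div, div_eq_one_iff_eq hba.ne']; ring), ?_⟩
    rw [hlevel _ _ _ _ (by rw [← add_div, div_eq_one_iff_eq hba.ne']; ring), hxa', hxb']
    field_simp
    ring
  have hcn : Continuous fun x : R3 => ⟪x, n⟫ := continuous_id.inner continuous_const
  obtain ⟨x, hx, hxmax⟩ := hSc.exists_isMaxOn hSne hcn.continuousOn
  obtain ⟨y, hy, hymin⟩ := hSc.exists_isMinOn hSne hcn.continuousOn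
  set d := ⟪x - y, n⟫ with hd
  have hd' : d = ⟪x, n⟫ - ⟪y, n⟫ := inner_sub_left _ _ _
  have hdiff : ∀ p ∈ S, ∀ q ∈ S, ⟪p, n⟫ - ⟪q, n⟫ ≤ d := fun p hp q hq => by
    have h1 : ⟪p, n⟫ ≤ ⟪x, n⟫ := hxmax hp
    have h2 : ⟪y, n⟫ ≤ ⟪q, n⟫ := hymin hq
    linarith
  have hd0 : 0 ≤ d := by linarith [hdiff x hx x hx]
  refine ⟨x, hx.1, y, hy.1, hx.2, hy.2, ?_⟩
  -- planar shadow
  set P := place ν n ⁻¹' (flatten v '' K) with hP
  have hcf : Continuous (flatten v) := by
    unfold flatten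
    fun_prop
  have hPm : MeasurableSet P :=
    ((hc.image hcf).isClosed.preimage (continuous_place ν n)).measurableSet
  have harea : minShadow K ≤ ∫⁻ t, volume (Prod.mk t ⁻¹' P) := by
    refine (iInf_le _ ⟨v, hv⟩).trans (le_of_eq ?_)
    rw [← Measure.prod_apply hPm, ← Measure.volume_eq_prod]
    exact hF.planeArea_eq _
  have hmemP : ∀ t p : ℝ, (t, p) ∈ P → ∃ z ∈ K, ⟪z, ν⟫ = t ∧ ⟪z, n⟫ = p := by
    rintro t p ⟨z, hz, he⟩
    have e1 := hF.inner_place (t, p)
    have e2 := hF.inner_place (⟪z, ν⟫, ⟪z, n⟫)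
    rw [← he, hF.flatten_eq, e2.1, e2.2] at e1
    exact ⟨z, hz, e1.1, e1.2⟩
  -- slices are controlled by the extreme values
  have hbound : ∀ (t : ℝ) (r : ℝ), (∀ p ∈ K, ∀ q ∈ K, ⟪p, ν⟫ = t → ⟪q, ν⟫ = t →
      ⟪p, n⟫ - ⟪q, n⟫ ≤ r) → volume (Prod.mk t ⁻¹' P) ≤ ENNReal.ofReal r := by
    intro t r hr
    refine (Real.volume_le_diam _).trans ?_
    refine Metric.ediam_le fun p hp q hq => ?_
    obtain ⟨zp, hzp, hzp1, rfl⟩ := hmemP t p hp
    obtain ⟨zq, hzq, hzq1, rfl⟩ := hmemP t q hq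
    rw [edist_dist, Real.dist_eq]
    refine ENNReal.ofReal_le_ofReal (abs_le.2 ⟨?_, hr _ hzp _ hzq hzp1 hzq1⟩)
    linarith [hr _ hzq _ hzp hzq1 hzp1]
  refine (mul_le_mul' le_rfl harea).trans (profile_bound (measurable_measure_prodMk_left hPm) hd0
    hah hhb ?_ ?_ ?_ ?_)
  · intro t ht1 ht2
    set Pt := Prod.mk t ⁻¹' P
    set Ps := Prod.mk (2 * h - t) ⁻¹' P
    have hexists : ∀ t ∈ Icc a b, (Prod.mk t ⁻¹' P).Nonempty := fun t ht => by
      refine ⟨⟪((b - t) / (b - a)) • xa + ((t - a) / (b - a)) • xb, n⟫, _,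
        hconv hxa hxb (div_nonneg (sub_nonneg.2 ht.2) hba.le)
          (div_nonneg (sub_nonneg.2 ht.1) hba.le)
          (by rw [← add_div, div_eq_one_iff_eq hba.ne']; ring), ?_⟩
      rw [hF.flatten_eq, hlevel _ _ _ _ (by rw [← add_div, div_eq_one_iff_eq hba.ne']; ring),
        hxa', hxb']
      refine congrArg (place ν n) (Prod.ext ?_ rfl)
      field_simp
      ring
    have he : Pt.Nonempty ∧ Ps.Nonempty := ⟨hexists t ht1, hexists _ ht2⟩
    -- compare extreme values of both slices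
    have hPt : ∀ t, IsCompact {z ∈ K | ⟪z, ν⟫ = t} := fun t =>
      hc.inter_right (isClosed_eq (continuous_id.inner continuous_const) continuous_const)
    obtain ⟨p0, hp0⟩ := he.1
    obtain ⟨q0, hq0⟩ := he.2
    obtain ⟨z1, hz1, hz1', -⟩ := hmemP t p0 hp0
    obtain ⟨z2, hz2, hz2', -⟩ := hmemP _ q0 hq0
    obtain ⟨A, hA, hAmax⟩ := (hPt t).exists_isMaxOn ⟨z1, hz1, hz1'⟩ hcn.continuousOn
    obtain ⟨A', hA', hA'min⟩ := (hPt t).exists_isMinOn ⟨z1, hz1, hz1'⟩ hcn.continuousOn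
    obtain ⟨B, hB, hBmax⟩ := (hPt (2 * h - t)).exists_isMaxOn ⟨z2, hz2, hz2'⟩ hcn.continuousOn
    obtain ⟨B', hB', hB'min⟩ := (hPt (2 * h - t)).exists_isMinOn ⟨z2, hz2, hz2'⟩ hcn.continuousOn
    have hmid : ∀ p q : R3, p ∈ K → q ∈ K → ⟪p, ν⟫ = t → ⟪q, ν⟫ = 2 * h - t →
        (1 / 2 : ℝ) • p + (1 / 2 : ℝ) • q ∈ S := fun p q hp hq hp' hq' =>
      ⟨hconv hp hq (by norm_num) (by norm_num) (by norm_num), by
        rw [hlevel _ _ _ _ (by norm_num), hp', hq']; ring⟩
    have h3 := hdiff _ (hmid A B hA.1 hB.1 hA.2 hB.2) _ (hmid A' B' hA'.1 hB'.1 hA'.2 hB'.2)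
    simp only [inner_add_left, real_inner_smul_left] at h3
    have hr1 : 0 ≤ ⟪A, n⟫ - ⟪A', n⟫ := sub_nonneg.2 (hAmax hA')
    have hr2 : 0 ≤ ⟪B, n⟫ - ⟪B', n⟫ := sub_nonneg.2 (hBmax hB')
    refine (add_le_add (hbound t (⟪A, n⟫ - ⟪A', n⟫) fun p hp q hq hp' hq' => ?_)
      (hbound (2 * h - t) (⟪B, n⟫ - ⟪B', n⟫) fun p hp q hq hp' hq' => ?_)).trans ?_
    · exact sub_le_sub (hAmax ⟨hp, hp'⟩) (hA'min ⟨hq, hq'⟩)
    · exact sub_le_sub (hBmax ⟨hp, hp'⟩) (hB'min ⟨hq, hq'⟩)
    · rw [← ENNReal.ofReal_add hr1 hr2]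
      exact ENNReal.ofReal_le_ofReal (by linarith)
  · intro t ht
    refine hbound t _ fun p hp q hq hp' hq' => ?_
    have hta : 0 < t - a := by linarith [ht.1]
    set s := (h - a) / (t - a) with hs
    have hs0 : 0 ≤ s := div_nonneg (by linarith) hta.le
    have hs1 : s ≤ 1 := (div_le_one hta).2 (by linarith [ht.1])
    have hmem : ∀ z ∈ K, ⟪z, ν⟫ = t → (1 - s) • xa + s • z ∈ S := fun z hz hz' =>
      ⟨hconv hxa hz (by linarith) hs0 (by ring), by
        rw [hlevel _ _ _ _ (by ring), hxa', hz', hs]; field_simp; ring⟩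
    have h3 := hdiff _ (hmem p hp hp') _ (hmem q hq hq')
    simp only [inner_add_left, real_inner_smul_left] at h3
    have hd1 : 0 < h - a := sub_pos.2 hah
    have h4 : s * (⟪p, n⟫ - ⟪q, n⟫) ≤ d := by linarith
    rw [hs, div_mul_eq_mul_div, div_le_iff₀ hta] at h4
    rw [mul_div_assoc', le_div_iff₀ hd1]
    linarith
  · intro t ht
    refine hbound t _ fun p hp q hq hp' hq' => ?_
    have htb : 0 < b - t := by linarith [ht.2]
    set s := (b - h) / (b - t) with hs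
    have hs0 : 0 ≤ s := div_nonneg (by linarith) htb.le
    have hs1 : s ≤ 1 := (div_le_one htb).2 (by linarith [ht.2])
    have hmem : ∀ z ∈ K, ⟪z, ν⟫ = t → (1 - s) • xb + s • z ∈ S := fun z hz hz' =>
      ⟨hconv hxb hz (by linarith) hs0 (by ring), by
        rw [hlevel _ _ _ _ (by ring), hxb', hz', hs]; field_simp; ring⟩
    have h3 := hdiff _ (hmem p hp hp') _ (hmem q hq hq')
    simp only [inner_add_left, real_inner_smul_left] at h3
    have hd1 : 0 < b - h := sub_pos.2 hhb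
    have h4 : s * (⟪p, n⟫ - ⟪q, n⟫) ≤ d := by linarith
    rw [hs, div_mul_eq_mul_div, div_le_iff₀ htb] at h4
    rw [mul_div_assoc', le_div_iff₀ hd1]
    linarith
  · intro t ht
    rw [show Prod.mk t ⁻¹' P = ∅ from ?_, measure_empty]
    ext p
    simp only [mem_preimage, mem_empty_iff_false, iff_false]
    intro hp
    obtain ⟨z, hz, hz', -⟩ := hmemP t p hp
    exact ht (hz' ▸ hrange z hz)

/-- Bang's half-area bound for coverings by cylinders whose axes are parallel to one plane. -/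
theorem half_area_coplanar {K : Set R3} (hc : IsCompact K) (hconv : Convex ℝ K)
    (hint : (interior K).Nonempty) {ι : Type} [Fintype ι] (u : ι → R3)
    (B : ι → Set R3) (hu : ∀ i, ‖u i‖ = 1) {ν : R3} (hν : ν ≠ 0)
    (hperp : ∀ i, ⟪u i, ν⟫ = 0) (hcov : ∀ x ∈ K, ∃ i, flatten (u i) x ∈ B i) :
    minShadow K ≤ 2 * ∑ i, planeArea (u i) (B i) := by
  -- normalise the normal
  have hn1 : ‖‖ν‖⁻¹ • ν‖ = 1 := norm_smul_inv_norm hν
  have hperp' : ∀ i, ⟪‖ν‖⁻¹ • ν, u i⟫ = 0 := fun i => by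
    rw [real_inner_smul_left, real_inner_comm, hperp i, mul_zero]
  set e := ‖ν‖⁻¹ • ν with he
  clear_value e
  have hce : Continuous fun x : R3 => ⟪x, e⟫ := continuous_id.inner continuous_const
  obtain ⟨xa, hxa, hamin⟩ := hc.exists_isMinOn (hint.mono interior_subset) hce.continuousOn
  obtain ⟨xb, hxb, hbmax⟩ := hc.exists_isMaxOn (hint.mono interior_subset) hce.continuousOn
  set a := ⟪xa, e⟫ with ha
  set b := ⟪xb, e⟫ with hb
  have hrange : ∀ x ∈ K, ⟪x, e⟫ ∈ Icc a b := fun x hx => ⟨hamin hx, hbmax hx⟩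
  have hab : a < b := by
    obtain ⟨z, hz⟩ := hint
    obtain ⟨r, hr, hball⟩ := Metric.isOpen_iff.1 isOpen_interior z hz
    have h1 : z + (r / 2) • e ∈ K := interior_subset (hball (by
      rw [Metric.mem_ball, dist_eq_norm, add_sub_cancel_left, norm_smul, hn1, Real.norm_eq_abs,
        abs_of_pos (by linarith)]
      linarith))
    have h2 := (hrange _ h1).2
    have h3 := (hrange _ (interior_subset hz)).1
    rw [inner_add_left, real_inner_smul_left, real_inner_self_eq_norm_sq, hn1] at h2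
    linarith
  choose w hwn hew huw using fun i => exists_third (a := e) (b := u i)
  have hfr : ∀ i, Frame e (w i) (u i) := fun i =>
    ⟨hn1, hwn i, hu i, hew i, hperp' i, by rw [real_inner_comm]; exact huw i⟩
  let P : ι → Set (ℝ × ℝ) := fun i => toMeasurable volume (place e (w i) ⁻¹' B i)
  have hPm : ∀ i, MeasurableSet (P i) := fun i => measurableSet_toMeasurable _ _
  have hPvol : ∀ i, ∫⁻ h, volume (Prod.mk h ⁻¹' P i) = planeArea (u i) (B i) := fun i => by
    rw [← Measure.prod_apply (hPm i), ← Measure.volume_eq_prod, (hfr i).planeArea_eq,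
      measure_toMeasurable]
  have hpoint : ∀ h ∈ Ioo a b,
      ENNReal.ofReal (tent a b h) * minShadow K ≤ ∑ i, volume (Prod.mk h ⁻¹' P i) := by
    intro h hh
    let F := (ℝ ∙ e)ᗮ
    have hFe : ∀ z : F, ⟪(z : R3), e⟫ = 0 := fun z =>
      Submodule.mem_orthogonal_singleton_iff_inner_left.1 z.2
    let T : Set F := {z | h • e + (z : R3) ∈ K}
    have hlift : ∀ x ∈ K, ⟪x, e⟫ = h → ∃ z ∈ T, (z : R3) = x - h • e := fun x hx hxh => by
      refine ⟨⟨x - h • e, Submodule.mem_orthogonal_singleton_iff_inner_left.2 ?_⟩, ?_, rfl⟩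
      · rw [inner_sub_left, real_inner_smul_left, real_inner_self_eq_norm_sq, hn1, hxh]; ring
      · simpa [T] using hx
    have hTconv : Convex ℝ T := fun p hp q hq s t hs ht hst => by
      show h • e + ((s • p + t • q : F) : R3) ∈ K
      have := hconv hp hq hs ht hst
      convert this using 1
      push_cast
      rw [smul_add, smul_add, add_add_add_comm, ← add_smul, hst, one_smul]
    have hTc : IsCompact T := by
      have hcl : IsClosed T := hc.isClosed.preimage (by fun_prop)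
      obtain ⟨R, hR⟩ := hc.isBounded.exists_norm_le
      refine Metric.isCompact_of_isClosed_isBounded hcl
        ((Metric.isBounded_closedBall (x := (0 : F)) (r := R + ‖h • e‖)).subset fun z hz => ?_)
      rw [mem_closedBall_zero_iff]
      calc ‖z‖ = ‖(h • e + (z : R3)) - h • e‖ := by rw [add_sub_cancel_left]; rfl
        _ ≤ ‖h • e + (z : R3)‖ + ‖h • e‖ := norm_sub_le _ _
        _ ≤ R + ‖h • e‖ := add_le_add (hR _ hz) le_rfl
    obtain ⟨v, hv, hev, -⟩ := exists_third (a := e) (b := e)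
    obtain ⟨x0, hx0, -, -, hx0h, -, -⟩ :=
      slice_wide hc hconv hn1 hv hev ⟨xa, hxa, ha.symm⟩ ⟨xb, hxb, hb.symm⟩ hrange hh.1 hh.2
    obtain ⟨z0, hz0, -⟩ := hlift x0 hx0 hx0h
    have hAtop : minShadow K ≠ ⊤ := by
      obtain ⟨e2, he2, hee2, -⟩ := exists_third (a := e) (b := e)
      obtain ⟨e3, he3, hee3, he23⟩ := exists_third (a := e) (b := e2)
      have hF : Frame e e2 e3 := ⟨hn1, he2, he3, hee2, hee3, he23⟩
      refine ne_top_of_le_ne_top ?_ (iInf_le _ ⟨e3, he3⟩)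
      rw [hF.planeArea_eq]
      have hsub : place e e2 ⁻¹' (flatten e3 '' K) ⊆
          (fun x => (⟪x, e⟫, ⟪x, e2⟫)) '' K := by
        rintro q ⟨z, hz, hq⟩
        refine ⟨z, hz, ?_⟩
        have e1 := hF.inner_place q
        have e4 := hF.inner_place (⟪z, e⟫, ⟪z, e2⟫)
        rw [← hq, hF.flatten_eq, e4.1, e4.2] at e1
        exact Prod.ext e1.1 e1.2
      exact ((measure_mono hsub).trans_lt (hc.image (by fun_prop)).measure_lt_top).ne
    have hwidth : WidthGE T ((ENNReal.ofReal (tent a b h) * minShadow K).toReal) := by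
      intro n hn
      obtain ⟨x, hx, y, hy, hxh, hyh, hle⟩ := slice_wide hc hconv hn1 (n := (n : R3)) hn
        (by rw [real_inner_comm]; exact hFe n) ⟨xa, hxa, ha.symm⟩ ⟨xb, hxb, hb.symm⟩ hrange hh.1 hh.2
      obtain ⟨zx, hzx, hzx'⟩ := hlift x hx hxh
      obtain ⟨zy, hzy, hzy'⟩ := hlift y hy hyh
      have heq : ⟪zx - zy, n⟫ = ⟪x - y, (n : R3)⟫ := by
        rw [Submodule.coe_inner, Submodule.coe_sub, hzx', hzy']
        congr 1
        abel
      have hprod : ENNReal.ofReal (tent a b h) * minShadow K ≠ ⊤ :=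
        ENNReal.mul_ne_top ENNReal.ofReal_ne_top hAtop
      by_cases hpos : 0 ≤ ⟪x - y, (n : R3)⟫
      · exact ⟨zx, hzx, zy, hzy, by
          rw [heq]; exact ENNReal.toReal_le_of_le_ofReal hpos hle⟩
      · refine ⟨zx, hzx, zx, hzx, ?_⟩
        rw [ENNReal.ofReal_eq_zero.2 (le_of_not_ge hpos)] at hle
        rw [nonpos_iff_eq_zero.1 hle]
        simp
    have hwF : ∀ i, w i ∈ F := fun i =>
      Submodule.mem_orthogonal_singleton_iff_inner_left.2 (by rw [real_inner_comm]; exact hew i)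
    have h5 := bang_measure (E := F) (fun i => ⟨w i, hwF i⟩) (fun i => Prod.mk h ⁻¹' P i)
      hTc hTconv ⟨z0, hz0⟩ hwidth (fun i => hwn i) (fun z hz => by
        obtain ⟨i, hi⟩ := hcov _ hz
        refine ⟨i, subset_toMeasurable volume (place e (w i) ⁻¹' B i) ?_⟩
        rw [(hfr i).flatten_eq] at hi
        have e5 : ⟪h • e + (z : R3), e⟫ = h := by
          simp [inner_add_left, real_inner_smul_left, hFe z, hn1]
        have e6 : ⟪h • e + (z : R3), w i⟫ = ⟪(z : R3), w i⟫ := by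
          simp [inner_add_left, real_inner_smul_left, hew i]
        rw [e5, e6] at hi
        exact hi)
    rwa [ENNReal.ofReal_toReal (ENNReal.mul_ne_top ENNReal.ofReal_ne_top hAtop)] at h5
  have hsum : ∫⁻ h in Ioo a b, ∑ i, volume (Prod.mk h ⁻¹' P i) ≤ ∑ i, planeArea (u i) (B i) := by
    rw [lintegral_finsetSum _ fun i _ => measurable_measure_prodMk_left (hPm i)]
    exact Finset.sum_le_sum fun i _ => (setLIntegral_le_lintegral _ _).trans (hPvol i).le
  have hint2 : 2⁻¹ * minShadow K ≤ ∑ i, planeArea (u i) (B i) := by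
    refine le_trans ?_ hsum
    rw [← lintegral_tent hab, ← setLIntegral_congr Ioo_ae_eq_Icc,
      ← lintegral_mul_const _ (by unfold tent; fun_prop)]
    exact setLIntegral_mono (Finset.measurable_sum _ fun i _ => measurable_measure_prodMk_left (hPm i))
      hpoint
  calc minShadow K = 2 * (2⁻¹ * minShadow K) := by
        rw [← mul_assoc, ENNReal.mul_inv_cancel two_ne_zero ENNReal.ofNat_ne_top, one_mul]
    _ ≤ _ := mul_le_mul' le_rfl hint2

end Vale.Agent.P243
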