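import Mathlib

/- Volume of a convex body over its projection, from one or two long vertical chords. -/

namespace Vale.Agent.P243

open MeasureTheory Set
open scoped ENNReal

variable {G : Type*} [NormedAddCommGroup G] [NormedSpace ℝ G] [FiniteDimensional ℝ G]
  [MeasurableSpace G] [BorelSpace G] (μ : Measure G) [μ.IsAddHaarMeasure]

noncomputable def sliceLen (K : Set (G × ℝ)) (z : G) : ℝ :=
  (volume (Prod.mk z ⁻¹' K)).toReal

omit [FiniteDimensional ℝ G] [MeasurableSpace G] [BorelSpace G] in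
lemma slice_finite {K : Set (G × ℝ)} (hK : IsCompact K) (z : G) :
    volume (Prod.mk z ⁻¹' K) < ⊤ :=
  (measure_mono (fun r hr => ⟨(z, r), hr, rfl⟩ : Prod.mk z ⁻¹' K ⊆ Prod.snd '' K)).trans_lt
    (hK.image continuous_snd).measure_lt_top

omit [FiniteDimensional ℝ G] [MeasurableSpace G] [BorelSpace G] in
lemma sliceLen_ge {K : Set (G × ℝ)} (hK : IsCompact K) (hc : Convex ℝ K) {y z : G} {c L h t : ℝ}
    (hy0 : (y, c) ∈ K) (hy1 : (y, c + L) ∈ K) (hz : (z, h) ∈ K) (hL : 0 ≤ L)
    (ht0 : 0 ≤ t) (ht1 : t ≤ 1) : (1 - t) * L ≤ sliceLen K (y + t • (z - y)) := by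
  have hsub : Icc ((1 - t) * c + t * h) ((1 - t) * c + t * h + (1 - t) * L) ⊆
      Prod.mk (y + t • (z - y)) ⁻¹' K := by
    intro r hr
    have m0 := hc hy0 hz (sub_nonneg.2 ht1) ht0 (by ring)
    have m1 := hc hy1 hz (sub_nonneg.2 ht1) ht0 (by ring)
    simp only [Prod.smul_mk, Prod.mk_add_mk, smul_eq_mul] at m0 m1
    have ey : (1 - t) • y + t • z = y + t • (z - y) := by module
    rw [ey] at m0 m1
    rw [show (1 - t) * (c + L) + t * h = (1 - t) * c + t * h + (1 - t) * L by ring] at m1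
    rcases (mul_nonneg (sub_nonneg.2 ht1) hL).eq_or_lt with hl | hl
    · have : r = (1 - t) * c + t * h := by have := hr.1; have := hr.2; linarith
      subst this; exact m0
    · set w : ℝ := (r - ((1 - t) * c + t * h)) / ((1 - t) * L) with hw
      have w0 : 0 ≤ w := div_nonneg (by linarith [hr.1]) hl.le
      have w1 : w ≤ 1 := (div_le_one hl).2 (by linarith [hr.2])
      have hmem := hc m0 m1 (sub_nonneg.2 w1) w0 (by ring)
      simp only [Prod.smul_mk, Prod.mk_add_mk, smul_eq_mul, ← add_smul, sub_add_cancel,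
        one_smul] at hmem
      have hwl : w * ((1 - t) * L) = r - ((1 - t) * c + t * h) := div_mul_cancel₀ _ hl.ne'
      have er : (1 - w) * ((1 - t) * c + t * h) + w * ((1 - t) * c + t * h + (1 - t) * L) = r := by
        linarith
      rw [er] at hmem; exact hmem
  have := ENNReal.toReal_mono (slice_finite hK _).ne (measure_mono (μ := volume) hsub)
  rwa [Real.volume_Icc, ENNReal.toReal_ofReal (by nlinarith), add_sub_cancel_left] at this

lemma homothety_measure (hdim : Module.finrank ℝ G = 2) (y : G) {t : ℝ} (S : Set G) :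
    μ ((fun z => y + t • (z - y)) '' S) = ENNReal.ofReal (t ^ 2) * μ S := by
  have h : (fun z => y + t • (z - y)) = AffineMap.homothety y t := by
    funext z; simp [AffineMap.homothety_apply, add_comm]
  rw [h, Measure.addHaar_image_homothety, hdim, abs_of_nonneg (sq_nonneg t)]

lemma volume_eq_layers {K : Set (G × ℝ)} (hK : IsCompact K) :
    μ.prod volume K = ∫⁻ l in Ioi 0, μ {z | l ≤ sliceLen K z} := by
  rw [Measure.prod_apply hK.measurableSet, ← lintegral_eq_lintegral_meas_le μ
    (f := sliceLen K) (Filter.Eventually.of_forall fun z => ENNReal.toReal_nonneg)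
    (measurable_measure_prodMk_left hK.measurableSet).ennreal_toReal.aemeasurable]
  exact lintegral_congr fun z => (ENNReal.ofReal_toReal (slice_finite hK z).ne).symm

lemma lintegral_cone {L : ℝ} (hL : 0 < L) :
    ∫⁻ l in Ioc 0 L, ENNReal.ofReal ((1 - l / L) ^ 2) = ENNReal.ofReal (L / 3) := by
  rw [← ofReal_integral_eq_lintegral_ofReal
    (Continuous.integrableOn_Ioc (by fun_prop))
    (Filter.Eventually.of_forall fun x => sq_nonneg _), ← intervalIntegral.integral_of_le hL.le]
  congr 1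
  have hder : ∀ x ∈ uIcc 0 L, HasDerivAt (fun l => -(L / 3) * (1 - l / L) ^ 3) ((1 - x / L) ^ 2) x := by
    intro x _
    have h1 : HasDerivAt (fun l : ℝ => 1 - l / L) (-(1 / L)) x := by
      simpa using ((hasDerivAt_id x).div_const L).const_sub 1
    refine ((h1.pow 3).const_mul (-(L / 3))).congr_deriv ?_
    simp only [Nat.cast_ofNat, Nat.add_one_sub_one]
    field_simp
  rw [intervalIntegral.integral_eq_sub_of_hasDerivAt hder (Continuous.intervalIntegrable (by fun_prop) _ _)]
  rw [div_self hL.ne']; ring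

/-- The cone bound. -/
lemma cone_bound {K : Set (G × ℝ)} (hK : IsCompact K) (hc : Convex ℝ K)
    (hdim : Module.finrank ℝ G = 2) {y : G} {c L : ℝ}
    (hy0 : (y, c) ∈ K) (hy1 : (y, c + L) ∈ K) (hL : 0 < L) :
    ENNReal.ofReal (L / 3) * μ (Prod.fst '' K) ≤ μ.prod volume K := by
  rw [volume_eq_layers μ hK, ← lintegral_cone hL, ← lintegral_mul_const _ (by fun_prop)]
  refine (setLIntegral_mono' measurableSet_Ioc fun l hl => ?_).trans
    (lintegral_mono_set fun l hl => hl.1)
  rw [← homothety_measure μ hdim y (Prod.fst '' K) (t := 1 - l / L)]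
  refine measure_mono ?_
  rintro _ ⟨_, ⟨⟨z, h⟩, hz, rfl⟩, rfl⟩
  have t1 : l / L ≤ 1 := (div_le_one hL).2 hl.2
  have t0 : 0 ≤ l / L := div_nonneg hl.1.le hL.le
  have := sliceLen_ge hK hc hy0 hy1 hz hL.le (t := 1 - l / L) (by linarith) (by linarith)
  simpa [div_mul_cancel₀ l hL.ne'] using this

/-- The improved cone bound from a second, separated, nearly as long chord. -/
lemma two_chord_bound {K : Set (G × ℝ)} (hK : IsCompact K) (hc : Convex ℝ K)
    (hdim : Module.finrank ℝ G = 2) {y y₂ : G} {c c₂ L ρ σ : ℝ}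
    (hy0 : (y, c) ∈ K) (hy1 : (y, c + L) ∈ K) (hL : 0 < L)
    (hz0 : (y₂, c₂) ∈ K) (hz1 : (y₂, c₂ + ρ * L) ∈ K) (hσ : 0 < σ) (hσ4 : σ ≤ 1/4)
    (hρ : 1 - σ ≤ ρ) (hρ1 : ρ ≤ 1)
    (hsep : ∀ z ∈ Prod.fst '' K, ∀ z' ∈ Prod.fst '' K, ∀ t ∈ Icc 0 (3 * σ),
      ∀ t' ∈ Icc 0 (3 * σ), y + t • (z - y) ≠ y₂ + t' • (z' - y₂)) :
    ENNReal.ofReal (L * (1/3 + σ ^ 3)) * μ (Prod.fst '' K) ≤ μ.prod volume K := by
  set A := μ (Prod.fst '' K)
  set S := Prod.fst '' K with hS
  set J : Set ℝ := Icc (L * (1 - 3 * σ)) (L * (1 - 2 * σ)) with hJ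
  set g : ℝ → ℝ≥0∞ := fun l =>
    ENNReal.ofReal ((1 - l / L) ^ 2) + J.indicator (fun _ => ENNReal.ofReal (σ ^ 2)) l with hg
  have hgi : ∫⁻ l in Ioc 0 L, g l = ENNReal.ofReal (L * (1/3 + σ ^ 3)) := by
    simp only [hg]
    rw [lintegral_add_left (by fun_prop), lintegral_cone hL,
      lintegral_indicator_const measurableSet_Icc, Measure.restrict_apply measurableSet_Icc]
    have : J ∩ Ioc 0 L = J := inter_eq_left.2 fun l hl =>
      ⟨lt_of_lt_of_le (by nlinarith) hl.1, hl.2.trans (by nlinarith)⟩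
    rw [← hJ, this, hJ, Real.volume_Icc, ← ENNReal.ofReal_mul (by positivity),
      ← ENNReal.ofReal_add (by positivity) (by nlinarith [pow_pos hσ 3])]
    congr 1; ring
  have hgm : Measurable g :=
    (show Measurable fun l : ℝ => ENNReal.ofReal ((1 - l / L) ^ 2) by fun_prop).add
      (measurable_const.indicator measurableSet_Icc)
  rw [volume_eq_layers μ hK, ← hgi, ← lintegral_mul_const _ hgm]
  refine (setLIntegral_mono' measurableSet_Ioc fun l hl => ?_).trans
    (lintegral_mono_set fun l hl => hl.1)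
  have t1 : l / L ≤ 1 := (div_le_one hL).2 hl.2
  have t0 : 0 ≤ l / L := div_nonneg hl.1.le hL.le
  have base : (fun z => y + (1 - l / L) • (z - y)) '' S ⊆ {z | l ≤ sliceLen K z} := by
    rintro _ ⟨_, ⟨⟨z, h⟩, hz, rfl⟩, rfl⟩
    have := sliceLen_ge hK hc hy0 hy1 hz hL.le (t := 1 - l / L) (by linarith) (by linarith)
    simpa [div_mul_cancel₀ l hL.ne'] using this
  by_cases hlJ : l ∈ J
  · simp only [hg, indicator_of_mem hlJ, add_mul]
    have ρ0 : 0 < ρ := by linarith
    set t' : ℝ := 1 - l / (ρ * L) with ht'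
    have hmul : l / (ρ * L) * ρ = l / L := by field_simp
    have lJ1 : 1 - 3 * σ ≤ l / L := by rw [le_div_iff₀ hL]; linarith [hlJ.1]
    have lJ2 : l / L ≤ 1 - 2 * σ := by rw [div_le_iff₀ hL]; linarith [hlJ.2]
    have q0 : 0 ≤ l / (ρ * L) := div_nonneg hl.1.le (by positivity)
    have q1 : l / (ρ * L) ≤ 1 - σ := by
      have h : l / L ≤ (1 - σ) * ρ := by nlinarith
      rw [← hmul] at h
      exact le_of_mul_le_mul_right h ρ0
    have q2 : 1 - 3 * σ ≤ l / (ρ * L) := by
      have : l / (ρ * L) * ρ ≤ l / (ρ * L) := mul_le_of_le_one_right q0 hρ1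
      linarith
    have second : (fun z => y₂ + t' • (z - y₂)) '' S ⊆ {z | l ≤ sliceLen K z} := by
      rintro _ ⟨_, ⟨⟨z, h⟩, hz, rfl⟩, rfl⟩
      have := sliceLen_ge hK hc hz0 hz1 hz (by positivity) (t := t') (by linarith) (by linarith)
      have e : (1 - t') * (ρ * L) = l := by rw [ht', sub_sub_cancel, div_mul_cancel₀]; positivity
      rw [e] at this; exact this
    have dis : Disjoint ((fun z => y + (1 - l / L) • (z - y)) '' S)
        ((fun z => y₂ + t' • (z - y₂)) '' S) := by
      rw [disjoint_left]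
      rintro _ ⟨z, hz, rfl⟩ ⟨z', hz', he⟩
      exact hsep z hz z' hz' _ ⟨by linarith, by linarith⟩ t' ⟨by linarith, by linarith⟩ he.symm
    have hm : MeasurableSet ((fun z => y₂ + t' • (z - y₂)) '' S) :=
      ((hK.image continuous_fst).image (by fun_prop)).measurableSet
    refine le_trans ?_ (measure_mono (union_subset base second))
    rw [measure_union dis hm, homothety_measure μ hdim, homothety_measure μ hdim]
    gcongr
    linarith
  · simp only [hg, indicator_of_notMem hlJ, add_zero]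
    rw [← homothety_measure μ hdim y S (t := 1 - l / L)]
    exact measure_mono base

end Vale.Agent.P243
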