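import Mathlib

/- Thin boundary shells of a gauge: the integral of second differences is small. -/

namespace Vale.Agent.P243

open MeasureTheory Set
open scoped ENNReal Pointwise

abbrev R3 := Fin 3 → ℝ

noncomputable def secDiff (j : R3 → ℝ) (s : ℝ) (i : Fin 3) (x : R3) : ℝ :=
  j (x + s • Pi.single i 1) + j (x - s • Pi.single i 1) - 2 * j x

noncomputable def bend (j : R3 → ℝ) (s : ℝ) (x : R3) : ℝ :=
  ∑ i, secDiff j s i x

/-- The gauge-like functions we work with. -/
structure GaugeLike (j : R3 → ℝ) : Prop where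
  conv : ConvexOn ℝ univ j
  homog : ∀ c : ℝ, 0 ≤ c → ∀ x, j (c • x) = c * j x
  lip : ∀ x y, |j x - j y| ≤ ‖x - y‖
  inBox : ∀ x, ‖x‖ ≤ 15 * j x

variable {j : R3 → ℝ}

lemma GaugeLike.continuous (hj : GaugeLike j) : Continuous j := by
  have : LipschitzWith 1 j :=
    LipschitzWith.of_dist_le_mul fun x y => by
      simpa [Real.dist_eq, dist_eq_norm] using hj.lip x y
  exact this.continuous

lemma secDiff_nonneg (hj : GaugeLike j) (s : ℝ) (i : Fin 3) (x : R3) :
    0 ≤ secDiff j s i x := by
  have h := hj.conv.2 (mem_univ (x + s • Pi.single i 1)) (mem_univ (x - s • Pi.single i 1))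
    (show (0:ℝ) ≤ 1/2 by norm_num) (show (0:ℝ) ≤ 1/2 by norm_num) (by norm_num)
  have e : (1/2 : ℝ) • (x + s • Pi.single i (1:ℝ)) + (1/2 : ℝ) • (x - s • Pi.single i 1) = x := by
    module
  rw [e] at h
  simp only [smul_eq_mul] at h
  unfold secDiff
  linarith

lemma bend_nonneg (hj : GaugeLike j) (s : ℝ) (x : R3) : 0 ≤ bend j s x :=
  Finset.sum_nonneg fun i _ => secDiff_nonneg hj s i x

lemma secDiff_mono (hj : GaugeLike j) {s t : ℝ} (hs : 0 ≤ s) (hst : s ≤ t) (ht : 0 < t)
    (i : Fin 3) (x : R3) : secDiff j s i x ≤ secDiff j t i x := by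
  set r : ℝ := s / t with hr
  have hr0 : 0 ≤ r := div_nonneg hs ht.le
  have hr1 : r ≤ 1 := (div_le_one ht).2 hst
  have hrt : r * t = s := div_mul_cancel₀ s ht.ne'
  have h1 := hj.conv.2 (mem_univ x) (mem_univ (x + t • Pi.single i 1))
    (sub_nonneg.2 hr1) hr0 (by ring)
  have h2 := hj.conv.2 (mem_univ x) (mem_univ (x - t • Pi.single i 1))
    (sub_nonneg.2 hr1) hr0 (by ring)
  have e1 : (1 - r) • x + r • (x + t • Pi.single i (1:ℝ)) = x + s • Pi.single i 1 := by
    rw [← hrt]; module
  have e2 : (1 - r) • x + r • (x - t • Pi.single i (1:ℝ)) = x - s • Pi.single i 1 := by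
    rw [← hrt]; module
  rw [e1] at h1; rw [e2] at h2
  simp only [smul_eq_mul] at h1 h2
  have h0 := secDiff_nonneg hj t i x
  have : r * secDiff j t i x ≤ secDiff j t i x := mul_le_of_le_one_left h0 hr1
  unfold secDiff at *
  nlinarith

lemma bend_scale (hj : GaugeLike j) {s c : ℝ} (hs : 0 < s) (hc : 0 < c) (hc1 : c ≤ 1) (x : R3) :
    c * bend j s x ≤ bend j s (c • x) := by
  rw [bend, bend, Finset.mul_sum]
  refine Finset.sum_le_sum fun i _ => ?_
  have hle : s ≤ s / c := by rw [le_div_iff₀ hc]; nlinarith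
  have h := secDiff_mono hj hs.le hle (lt_of_lt_of_le hs hle) i x
  refine (mul_le_mul_of_nonneg_left h hc.le).trans (le_of_eq ?_)
  have e : c * (s / c) = s := mul_div_cancel₀ s hc.ne'
  have e1 : c • x + s • Pi.single i (1:ℝ) = c • (x + (s / c) • Pi.single i 1) := by
    rw [smul_add, smul_smul, e]
  have e2 : c • x - s • Pi.single i (1:ℝ) = c • (x - (s / c) • Pi.single i 1) := by
    rw [smul_sub, smul_smul, e]
  unfold secDiff
  rw [e1, e2, hj.homog c hc.le, hj.homog c hc.le, hj.homog c hc.le]
  ring

lemma continuous_secDiff (hj : GaugeLike j) (s : ℝ) (i : Fin 3) :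
    Continuous (secDiff j s i) := by
  have := hj.continuous
  unfold secDiff
  fun_prop

lemma continuous_bend (hj : GaugeLike j) (s : ℝ) : Continuous (bend j s) :=
  continuous_finsetSum _ fun i _ => continuous_secDiff hj s i

/-- The big box. -/
def box : Set R3 := Icc (fun _ => -16) (fun _ => 16)

lemma volume_Icc_real (a b : R3) (h : a ≤ b) :
    volume.real (Icc a b) = (b 0 - a 0) * (b 1 - a 1) * (b 2 - a 2) := by
  simp [Measure.real, Real.volume_Icc_pi_toReal h, Fin.prod_univ_three]

lemma integral_secDiff_le (hj : GaugeLike j) {s : ℝ} (hs : 0 < s) (hs1 : s ≤ 1) (i : Fin 3) :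
    ∫ x in box, secDiff j s i x ≤ 2048 * s ^ 2 := by
  set e : R3 := s • Pi.single i 1 with he
  set h : R3 → ℝ := fun x => j x - j (x - e) with hh
  have hne : ‖e‖ ≤ s := by
    refine (pi_norm_le_iff_of_nonneg hs.le).2 fun k => ?_
    by_cases hk : k = i
    · subst hk; simp [he, abs_of_pos hs]
    · simp [he, hk, hs.le]
  have hb : ∀ x, |h x| ≤ s := fun x => (hj.lip x (x - e)).trans (by simpa using hne)
  have hc : Continuous h := by have := hj.continuous; unfold h; fun_prop
  have eq : ∀ x, secDiff j s i x = h (x + e) - h x := by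
    intro x; simp only [hh, secDiff, ← he, add_sub_cancel_right]; ring
  set Q' : Set R3 := Icc ((fun _ => -16) + e) ((fun _ => 16) + e) with hQ'
  have shift : ∫ x in box, h (x + e) = ∫ x in Q', h x := by
    have hpre : (fun x => x + e) ⁻¹' Q' = box := by simp [hQ', box]
    have := (measurePreserving_add_right (volume : Measure R3) e).setIntegral_preimage_emb
      (measurableEmbedding_addRight e) h Q'
    rwa [hpre] at this
  have i1 : IntegrableOn h box := hc.continuousOn.integrableOn_compact isCompact_Icc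
  have i2 : IntegrableOn h Q' := hc.continuousOn.integrableOn_compact isCompact_Icc
  have ic : IntegrableOn (fun x => h (x + e)) box :=
    (hc.comp (continuous_id.add continuous_const)).continuousOn.integrableOn_compact isCompact_Icc
  rw [setIntegral_congr_fun (show MeasurableSet box from measurableSet_Icc) (fun x _ => eq x),
    integral_sub ic i1, shift]
  have d1 := integral_inter_add_sdiff (μ := volume) (s := Q') (t := box) measurableSet_Icc i2
  have d2 := integral_inter_add_sdiff (μ := volume) (s := box) (t := Q') measurableSet_Icc i1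
  rw [inter_comm box Q'] at d2
  have b : ∀ (S : Set R3) (lo hi : R3), lo ≤ hi → S ⊆ Icc lo hi →
      (hi 0 - lo 0) * (hi 1 - lo 1) * (hi 2 - lo 2) ≤ 1024 * s → |∫ x in S, h x| ≤ 1024 * s ^ 2 := by
    intro S lo hi hlh hS hv
    have hfin : volume S < ⊤ := (measure_mono hS).trans_lt isCompact_Icc.measure_lt_top
    have h1 := norm_setIntegral_le_of_norm_le_const (μ := volume) (f := h) hfin
      (fun x _ => hb x)
    have h2 : volume.real S ≤ 1024 * s := by
      refine (measureReal_mono hS isCompact_Icc.measure_ne_top).trans ?_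
      rw [volume_Icc_real lo hi hlh]; exact hv
    calc |∫ x in S, h x| ≤ s * volume.real S := by simpa using h1
      _ ≤ s * (1024 * s) := mul_le_mul_of_nonneg_left h2 hs.le
      _ = _ := by ring
  have ei : ∀ k, e k = if k = i then s else 0 := by
    intro k; simp [he, Pi.single_apply]
  have b1 := b (Q' \ box) (fun k => if k = i then 16 else -16)
    (fun k => if k = i then 16 + s else 16) (by intro k; dsimp only; split <;> linarith)
    (by
      rintro x ⟨⟨h1, h2⟩, hx⟩
      have hi' : 16 < x i := by
        by_contra hcon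
        apply hx
        refine ⟨fun k => ?_, fun k => ?_⟩
        · have := h1 k; simp only [Pi.add_apply, ei] at this ⊢; split at this <;> linarith
        · have := h2 k; simp only [Pi.add_apply, ei] at this ⊢
          split at this
          · subst k; exact not_lt.1 hcon
          · linarith
      refine ⟨fun k => ?_, fun k => ?_⟩
      · have := h1 k; simp only [Pi.add_apply, ei] at this ⊢
        split
        · subst k; exact hi'.le
        · rw [if_neg (by assumption)] at this; linarith
      · have := h2 k; simp only [Pi.add_apply, ei] at this ⊢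
        split
        · subst k; simpa using this
        · rw [if_neg (by assumption)] at this; linarith)
    (by fin_cases i <;> norm_num [Fin.ext_iff] <;> nlinarith)
  have b2 := b (box \ Q') (fun _ => -16)
    (fun k => if k = i then -16 + s else 16) (by intro k; dsimp only; split <;> linarith)
    (by
      rintro x ⟨⟨h1, h2⟩, hx⟩
      have hi' : x i < -16 + s := by
        by_contra hcon
        apply hx
        refine ⟨fun k => ?_, fun k => ?_⟩
        · have := h1 k; simp only [Pi.add_apply, ei] at this ⊢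
          split
          · subst k; linarith [not_lt.1 hcon]
          · linarith
        · have := h2 k; simp only [Pi.add_apply, ei] at this ⊢; split <;> linarith
      refine ⟨h1, fun k => ?_⟩
      have := h2 k; simp only at this ⊢
      split
      · subst k; exact hi'.le
      · exact this)
    (by fin_cases i <;> norm_num [Fin.ext_iff] <;> nlinarith)
  rw [abs_le] at b1 b2
  linarith

lemma lintegral_bend_le (hj : GaugeLike j) {s : ℝ} (hs : 0 < s) (hs1 : s ≤ 1) :
    ∫⁻ x in box, ENNReal.ofReal (bend j s x) ≤ ENNReal.ofReal (6144 * s ^ 2) := by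
  have hint : IntegrableOn (bend j s) box :=
    (continuous_bend hj s).continuousOn.integrableOn_compact isCompact_Icc
  rw [← ofReal_integral_eq_lintegral_ofReal hint
    (Filter.Eventually.of_forall fun x => bend_nonneg hj s x)]
  refine ENNReal.ofReal_le_ofReal ?_
  simp only [bend]
  rw [integral_finsetSum _ fun i _ =>
    (((continuous_secDiff hj s i).continuousOn.integrableOn_compact
      (show IsCompact box from isCompact_Icc)).integrable)]
  refine (Finset.sum_le_sum fun i _ => integral_secDiff_le hj hs hs1 i).trans ?_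
  simp; linarith

/-- The shell of thickness `ε` under the boundary. -/
def shell (j : R3 → ℝ) (ε : ℝ) : Set R3 := {x | 1 - ε < j x ∧ j x ≤ 1}

lemma shell_lintegral_le (hj : GaugeLike j) {s ε : ℝ} (hs : 0 < s) (hs1 : s ≤ 1)
    (hε : 0 < ε) (hε6 : ε ≤ 1/6) :
    ∫⁻ x in shell j ε, ENNReal.ofReal (bend j s x) ≤ ENNReal.ofReal (294912 * ε * s ^ 2) := by
  set q : ℝ := 1 - ε with hq
  have q0 : 0 < q := by rw [hq]; linarith
  have q1 : q ≤ 1 := by rw [hq]; linarith
  set n : ℕ := ⌊1 / (2 * ε)⌋₊ with hn
  have hn1 : (n : ℝ) * (2 * ε) ≤ 1 := by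
    rw [← le_div_iff₀ (by positivity)]; exact Nat.floor_le (by positivity)
  have hn2 : 1 ≤ (n : ℝ) * (3 * ε) := by
    have h := Nat.lt_floor_add_one (1 / (2 * ε))
    rw [← hn, div_lt_iff₀ (by positivity)] at h
    nlinarith
  have hk : ∀ k, k ≤ n → 1/2 ≤ q ^ k := by
    intro k hk
    refine le_trans ?_ (pow_le_pow_of_le_one q0.le q1 hk)
    have h := one_add_mul_le_pow (show (-2:ℝ) ≤ -ε by linarith) n
    rw [← sub_eq_add_neg, ← hq] at h
    linarith
  set S : ℕ → Set R3 := fun k => {x | q ^ (k+1) < j x ∧ j x ≤ q ^ k} with hS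
  have hSm : ∀ k, MeasurableSet (S k) := fun k =>
    (measurableSet_lt measurable_const hj.continuous.measurable).inter
      (measurableSet_le hj.continuous.measurable measurable_const)
  set F : R3 → ℝ≥0∞ := fun x => ENNReal.ofReal (bend j s x) with hF
  have hFm : Measurable F := (continuous_bend hj s).measurable.ennreal_ofReal
  have hstep : ∀ k < n,
      ENNReal.ofReal ((1/2) ^ 4) * ∫⁻ x in shell j ε, F x ≤ ∫⁻ x in S k, F x := by
    intro k hkn
    set c : ℝ := q ^ k with hc
    have c0 : 0 < c := by positivity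
    have c1 : c ≤ 1 := pow_le_one₀ q0.le q1
    have ch : 1/2 ≤ c := hk k hkn.le
    have hmem : ∀ x, c • x ∈ S k ↔ x ∈ shell j ε := by
      intro x
      simp only [hS, shell, mem_setOf_eq, hj.homog c c0.le, pow_succ, ← hc, ← hq]
      constructor
      · rintro ⟨a, b⟩
        exact ⟨lt_of_mul_lt_mul_left a c0.le, by nlinarith⟩
      · rintro ⟨a, b⟩
        exact ⟨mul_lt_mul_of_pos_left a c0, by nlinarith⟩
    have hsh : MeasurableSet (shell j ε) := by simpa [hS, shell, hq] using hSm 0
    have h1 : ENNReal.ofReal c * ∫⁻ x in shell j ε, F x ≤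
        ∫⁻ x in shell j ε, F (c • x) := by
      rw [← lintegral_const_mul _ hFm]
      refine lintegral_mono fun x => ?_
      simp only [hF]
      rw [← ENNReal.ofReal_mul c0.le]
      exact ENNReal.ofReal_le_ofReal (bend_scale hj hs c0 c1 x)
    have h2 : ∫⁻ x in shell j ε, F (c • x) =
        ENNReal.ofReal ((c ^ 3)⁻¹) * ∫⁻ x in S k, F x := by
      have hmap := Measure.map_addHaar_smul (volume : Measure R3) c0.ne'
      have h3 : ∫⁻ x, (S k).indicator F (c • x) =
          ∫⁻ x, (S k).indicator F x ∂(Measure.map (fun x => c • x) volume) :=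
        (lintegral_map (hFm.indicator (hSm k)) (measurable_const_smul c)).symm
      rw [hmap, lintegral_smul_measure, lintegral_indicator (hSm k)] at h3
      rw [← lintegral_indicator hsh]
      have hfun : ∀ x, (shell j ε).indicator (fun x => F (c • x)) x = (S k).indicator F (c • x) := by
        intro x
        by_cases hx : x ∈ shell j ε
        · rw [indicator_of_mem hx, indicator_of_mem ((hmem x).2 hx)]
        · rw [indicator_of_notMem hx, indicator_of_notMem (mt (hmem x).1 hx)]
      rw [lintegral_congr hfun, h3]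
      simp [abs_of_pos (inv_pos.2 (pow_pos c0 3))]
    rw [h2] at h1
    have h4 := mul_le_mul_right h1 (ENNReal.ofReal (c ^ 3))
    have c3 : (0:ℝ) < c ^ 3 := pow_pos c0 3
    rw [← mul_assoc, ← mul_assoc, ← ENNReal.ofReal_mul c3.le, ← ENNReal.ofReal_mul c3.le,
      mul_inv_cancel₀ c3.ne', ENNReal.ofReal_one, one_mul] at h4
    refine le_trans ?_ h4
    gcongr
    calc (1/2:ℝ) ^ 4 ≤ c ^ 4 := by gcongr
      _ = c ^ 3 * c := by ring
  have hdisj : Pairwise fun a b => Disjoint (S a) (S b) := by
    intro a b hab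
    rw [disjoint_left]
    rintro x ⟨ha1, ha2⟩ ⟨hb1, hb2⟩
    rcases lt_or_gt_of_ne hab with h | h
    · have := pow_le_pow_of_le_one q0.le q1 (Nat.succ_le_of_lt h); simp only [Nat.succ_eq_add_one] at this; linarith
    · have := pow_le_pow_of_le_one q0.le q1 (Nat.succ_le_of_lt h); simp only [Nat.succ_eq_add_one] at this; linarith
  have hsub : (⋃ k ∈ Finset.range n, S k) ⊆ box := by
    intro x hx
    simp only [mem_iUnion] at hx
    obtain ⟨k, -, -, h2⟩ := hx
    have hj1 : j x ≤ 1 := h2.trans (pow_le_one₀ q0.le q1)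
    have hnx : ‖x‖ ≤ 15 := (hj.inBox x).trans (by linarith)
    refine ⟨fun i => ?_, fun i => ?_⟩ <;>
    · have := (norm_le_pi_norm x i).trans hnx
      rw [Real.norm_eq_abs, abs_le] at this
      dsimp only
      linarith
  have hsum : (n : ℝ≥0∞) * (ENNReal.ofReal ((1/2) ^ 4) * ∫⁻ x in shell j ε, F x) ≤
      ∫⁻ x in box, F x := by
    calc _ = ∑ _k ∈ Finset.range n, ENNReal.ofReal ((1/2) ^ 4) * ∫⁻ x in shell j ε, F x := by simp
      _ ≤ ∑ k ∈ Finset.range n, ∫⁻ x in S k, F x :=
          Finset.sum_le_sum fun k hk' => hstep k (Finset.mem_range.1 hk')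
      _ = ∫⁻ x in ⋃ k ∈ Finset.range n, S k, F x :=
          (lintegral_biUnion_finset (hdisj.pairwiseDisjoint _) (fun k _ => hSm k) F).symm
      _ ≤ _ := lintegral_mono_set hsub
  have h5 := hsum.trans (lintegral_bend_le hj hs hs1)
  have key : (1:ℝ≥0∞) ≤ ENNReal.ofReal (48 * ε) * (n * ENNReal.ofReal ((1/2) ^ 4)) := by
    rw [← ENNReal.ofReal_natCast, ← ENNReal.ofReal_mul (by positivity),
      ← ENNReal.ofReal_mul (by positivity), ← ENNReal.ofReal_one]
    exact ENNReal.ofReal_le_ofReal (by nlinarith)
  calc ∫⁻ x in shell j ε, F x ≤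
        ENNReal.ofReal (48 * ε) * (n * ENNReal.ofReal ((1/2) ^ 4)) * ∫⁻ x in shell j ε, F x :=
        le_mul_of_one_le_left' key
    _ = ENNReal.ofReal (48 * ε) * (n * (ENNReal.ofReal ((1/2) ^ 4) * ∫⁻ x in shell j ε, F x)) := by
        ring
    _ ≤ ENNReal.ofReal (48 * ε) * ENNReal.ofReal (6144 * s ^ 2) := by gcongr
    _ = _ := by rw [← ENNReal.ofReal_mul (by positivity)]; ring_nf

/-- The thin bad set removed from the body. -/
def badSet (j : R3 → ℝ) (s ε : ℝ) : Set R3 := {x | x ∈ shell j ε ∧ s / 1000 < bend j s x}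

lemma measurableSet_badSet (hj : GaugeLike j) (s ε : ℝ) : MeasurableSet (badSet j s ε) :=
  ((measurableSet_lt measurable_const hj.continuous.measurable).inter
    (measurableSet_le hj.continuous.measurable measurable_const)).inter
    (measurableSet_lt measurable_const (continuous_bend hj s).measurable)

lemma volume_badSet_le (hj : GaugeLike j) {s ε : ℝ} (hs : 0 < s) (hs1 : s ≤ 1)
    (hε : 0 < ε) (hε6 : ε ≤ 1/6) :
    volume (badSet j s ε) ≤ ENNReal.ofReal (294912000 * ε * s) := by
  have h1 : ENNReal.ofReal (s / 1000) * volume (badSet j s ε) ≤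
      ∫⁻ x in shell j ε, ENNReal.ofReal (bend j s x) := by
    rw [← setLIntegral_const]
    calc ∫⁻ _ in badSet j s ε, ENNReal.ofReal (s / 1000) ≤
          ∫⁻ x in badSet j s ε, ENNReal.ofReal (bend j s x) :=
          setLIntegral_mono (continuous_bend hj s).measurable.ennreal_ofReal
            (fun x hx => ENNReal.ofReal_le_ofReal hx.2.le)
      _ ≤ _ := lintegral_mono_set fun x hx => hx.1
  have h2 := mul_le_mul_right (h1.trans (shell_lintegral_le hj hs hs1 hε hε6))
    (ENNReal.ofReal (1000 / s))
  rw [← mul_assoc, ← ENNReal.ofReal_mul (by positivity), ← ENNReal.ofReal_mul (by positivity),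
    show (1000 / s) * (s / 1000) = 1 by field_simp,
    show (1000 / s) * (294912 * ε * s ^ 2) = 294912000 * ε * s by field_simp; ring,
    ENNReal.ofReal_one, one_mul] at h2
  exact h2

end Vale.Agent.P243
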