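import Mathlib
import Vale.Agent.P243.Shell

/- A chord of a body whose two end parts meet flat boundary points admits a long parallel
chord at a definite distance. -/

namespace Vale.Agent.P243

open Set

variable {j : R3 → ℝ}

def dot3 (x y : R3) : ℝ := x 0 * y 0 + x 1 * y 1 + x 2 * y 2

noncomputable def dotLin (v : R3) : R3 →ₗ[ℝ] ℝ where
  toFun x := dot3 v x
  map_add' x y := by simp [dot3]; ring
  map_smul' c x := by simp [dot3]; ring

lemma exists_direction (u p q : R3) {s : ℝ} (hs : 0 < s) :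
    ∃ d : R3, |d 0| + |d 1| + |d 2| = s ∧ dot3 u d = 0 ∧ dot3 p d ≤ 0 ∧ dot3 q d ≤ 0 := by
  have hker : LinearMap.ker ((dotLin u).prod (dotLin p)) ≠ ⊥ :=
    LinearMap.ker_ne_bot_of_finrank_lt (by simp)
  obtain ⟨w, hw, hw0⟩ := (Submodule.ne_bot_iff _).1 hker
  have hw' : dot3 u w = 0 ∧ dot3 p w = 0 := by simpa [dotLin] using hw
  set N : ℝ := |w 0| + |w 1| + |w 2| with hN
  have hNpos : 0 < N := by
    by_contra h
    have h' : N ≤ 0 := not_lt.1 h
    apply hw0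
    funext k
    have h0 : |w 0| ≤ 0 ∧ |w 1| ≤ 0 ∧ |w 2| ≤ 0 := by
      have := abs_nonneg (w 0); have := abs_nonneg (w 1); have := abs_nonneg (w 2)
      exact ⟨by linarith, by linarith, by linarith⟩
    have hk : |w k| ≤ 0 := by
      fin_cases k <;> simp_all
    simpa using hk
  obtain ⟨σ, hσ, hσq⟩ : ∃ σ : ℝ, (σ = 1 ∨ σ = -1) ∧ σ * dot3 q w ≤ 0 := by
    rcases le_total (dot3 q w) 0 with h | h
    · exact ⟨1, Or.inl rfl, by linarith⟩
    · exact ⟨-1, Or.inr rfl, by linarith⟩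
  have hsc : ∀ v : R3, dot3 v ((σ * s / N) • w) = σ * s / N * dot3 v w := fun v => by
    simp [dot3]; ring
  have habs : |σ * s / N| = s / N := by
    rcases hσ with h | h <;> simp [h, abs_div, abs_of_pos hs, abs_of_pos hNpos]
  refine ⟨(σ * s / N) • w, ?_, ?_, ?_, ?_⟩
  · simp only [Pi.smul_apply, smul_eq_mul, abs_mul, habs]
    rw [← mul_add, ← mul_add, ← hN, div_mul_cancel₀ _ hNpos.ne']
  · rw [hsc, hw'.1, mul_zero]
  · rw [hsc, hw'.2, mul_zero]
  · rw [hsc, show σ * s / N * dot3 q w = s / N * (σ * dot3 q w) by ring]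
    exact mul_nonpos_of_nonneg_of_nonpos (by positivity) hσq

/-- Symmetric slope vector. -/
noncomputable def slope3 (j : R3 → ℝ) (s : ℝ) (x : R3) : R3 := fun i =>
  (j (x + s • Pi.single i 1) - j (x - s • Pi.single i 1)) / (2 * s)

lemma flat_upper (hj : GaugeLike j) {s : ℝ} (hs : 0 < s) (x d : R3)
    (hd : |d 0| + |d 1| + |d 2| = s) :
    j (x + d) ≤ j x + dot3 (slope3 j s x) d + bend j s x / 2 := by
  set g : R3 := fun i => if 0 ≤ d i then (1:ℝ) else -1 with hg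
  have hgd : ∀ i, |d i| * g i = d i := by
    intro i; simp only [hg]; split <;> rename_i h
    · rw [abs_of_nonneg h]; ring
    · rw [abs_of_neg (not_le.1 h)]; ring
  have hw : ∑ i : Fin 3, |d i| / s = 1 := by
    simp [Fin.sum_univ_three]; field_simp; linarith
  have key := hj.conv.map_sum_le (t := Finset.univ) (w := fun i => |d i| / s)
    (p := fun i => x + (g i * s) • Pi.single i (1:ℝ))
    (fun i _ => div_nonneg (abs_nonneg _) hs.le) hw (fun i _ => mem_univ _)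
  have e : (∑ i : Fin 3, (|d i| / s) • (x + (g i * s) • Pi.single i (1:ℝ))) = x + d := by
    funext k
    simp only [Finset.sum_apply, Pi.smul_apply, Pi.add_apply, smul_eq_mul, mul_add,
      Finset.sum_add_distrib, ← Finset.sum_mul, hw, one_mul]
    congr 1
    rw [Finset.sum_eq_single k]
    · simp only [Pi.single_eq_same, mul_one]
      rw [← mul_assoc, div_mul_eq_mul_div, hgd]; field_simp
    · intro b _ hb; simp [Ne.symm hb]
    · simp
  rw [e] at key
  refine key.trans ?_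
  have hb : ∀ i : Fin 3, j (x + (g i * s) • Pi.single i (1:ℝ)) =
      j x + g i * s * slope3 j s x i + secDiff j s i x / 2 := by
    intro i
    simp only [hg, slope3, secDiff]; split
    · simp only [one_mul]; field_simp; ring
    · simp only [neg_mul, one_mul, neg_smul, ← sub_eq_add_neg]; field_simp; ring
  simp only [smul_eq_mul, hb, Fin.sum_univ_three, bend, dot3]
  have hnn : ∀ i : Fin 3, |d i| / s * (secDiff j s i x / 2) ≤ secDiff j s i x / 2 := by
    intro i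
    refine mul_le_of_le_one_left (by have := secDiff_nonneg hj s i x; linarith) ?_
    rw [div_le_one hs]
    have := abs_nonneg (d 0); have := abs_nonneg (d 1); have := abs_nonneg (d 2)
    fin_cases i <;> simp [Fin.ext_iff] <;> linarith
  have t : ∀ i : Fin 3, |d i| / s * (g i * s * slope3 j s x i) = slope3 j s x i * d i := by
    intro i
    calc _ = (|d i| * g i) * slope3 j s x i := by field_simp
      _ = _ := by rw [hgd]; ring
  have hw3 : |d 0| / s + |d 1| / s + |d 2| / s = 1 := by simpa [Fin.sum_univ_three] using hw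
  have h3 : |d 0| / s * j x + |d 1| / s * j x + |d 2| / s * j x = j x := by
    rw [← add_mul, ← add_mul, hw3, one_mul]
  linarith [t 0, t 1, t 2, hnn 0, hnn 1, hnn 2]

lemma abs_dot3_le {d : R3} {s : ℝ} (hd : |d 0| + |d 1| + |d 2| = s) (w : R3) {M : ℝ}
    (hw : ‖w‖ ≤ M) : |dot3 w d| ≤ M * s := by
  have h : ∀ i, |w i * d i| ≤ M * |d i| := fun i => by
    rw [abs_mul]
    exact mul_le_mul_of_nonneg_right ((Real.norm_eq_abs _ ▸ norm_le_pi_norm w i).trans hw)
      (abs_nonneg _)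
  calc |dot3 w d| ≤ |w 0 * d 0| + |w 1 * d 1| + |w 2 * d 2| := abs_add_three _ _ _
    _ ≤ M * |d 0| + M * |d 1| + M * |d 2| := by linarith [h 0, h 1, h 2]
    _ = M * s := by rw [← hd]; ring

lemma flat_gain (hj : GaugeLike j) {s a : ℝ} (hs : 0 < s) (hs1 : s ≤ 1) (ha : a ≤ s / 8000)
    (P u : R3) (hP : j P ≤ 1) (hQ : j (P + u) ≤ 1) {a₁ a₂ : ℝ}
    (h1 : a₁ ∈ Icc 0 a) (h2 : a₂ ∈ Icc 0 a)
    (b1 : bend j s (P + a₁ • u) ≤ s / 1000)
    (b2 : bend j s (P + (1 - a₂) • u) ≤ s / 1000) :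
    ∃ (P₂ : R3) (ρ : ℝ), j P₂ ≤ 1 ∧ j (P₂ + ρ • u) ≤ 1 ∧ 1 - s / 1000 ≤ ρ ∧ ρ ≤ 1 ∧
      ∀ Z Z' : R3, j Z ≤ 1 → j Z' ≤ 1 → ∀ t ∈ Icc 0 (3 * (s / 1000)),
        ∀ t' ∈ Icc 0 (3 * (s / 1000)), ∀ r : ℝ,
          P + t • (Z - P) - (P₂ + t' • (Z' - P₂)) ≠ r • u := by
  obtain ⟨h10, h1a⟩ := h1
  obtain ⟨h20, h2a⟩ := h2
  have inSeg : ∀ θ ∈ Icc (0:ℝ) 1, j (P + θ • u) ≤ 1 := by
    intro θ hθ
    have h := hj.conv.2 (mem_univ P) (mem_univ (P + u)) (sub_nonneg.2 hθ.2) hθ.1 (by ring)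
    rw [show (1 - θ) • P + θ • (P + u) = P + θ • u by module] at h
    simp only [smul_eq_mul] at h
    have u1 := mul_le_mul_of_nonneg_left hP (sub_nonneg.2 hθ.2)
    have u2 := mul_le_mul_of_nonneg_left hQ hθ.1
    linarith
  obtain ⟨d, hd, hdu, hdp, hdq⟩ :=
    exists_direction u (slope3 j s (P + a₁ • u)) (slope3 j s (P + (1 - a₂) • u)) hs
  have hx := flat_upper hj hs (P + a₁ • u) d hd
  have hx' := flat_upper hj hs (P + (1 - a₂) • u) d hd
  have hjx := inSeg a₁ ⟨h10, by linarith⟩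
  have hjx' := inSeg (1 - a₂) ⟨by linarith, by linarith⟩
  set c : ℝ := 1 / (1 + s / 2000) with hc
  have c0 : 0 < c := by positivity
  have cmul : c * (1 + s / 2000) = 1 := by rw [hc]; field_simp
  have c1 : c ≤ 1 := by nlinarith
  have c2 : 1 - s / 2000 ≤ c := by nlinarith
  set P₂ : R3 := c • (P + a₁ • u + d) with hP₂
  set ρ : ℝ := c * (1 - a₁ - a₂) with hρ
  have e2 : P₂ + ρ • u = c • (P + (1 - a₂) • u + d) := by rw [hP₂, hρ]; module
  have m1 : j P₂ ≤ 1 := by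
    rw [hP₂, hj.homog c c0.le]
    exact (mul_le_mul_of_nonneg_left (by linarith) c0.le).trans (le_of_eq cmul)
  refine ⟨P₂, ρ, m1, ?_, ?_, ?_, ?_⟩
  · rw [e2, hj.homog c c0.le]
    exact (mul_le_mul_of_nonneg_left (by linarith) c0.le).trans (le_of_eq cmul)
  · have : 1 - s / 4000 ≤ 1 - a₁ - a₂ := by linarith
    rw [hρ]
    refine le_trans ?_ (mul_le_mul c2 this (by linarith) c0.le)
    nlinarith
  · rw [hρ]; exact mul_le_one₀ c1 (by linarith) (by linarith)
  intro Z Z' hZ hZ' t ht t' ht' r hcon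
  have bZ : ∀ w : R3, j w ≤ 1 → ‖w‖ ≤ 15 := fun w hw => (hj.inBox w).trans (by linarith)
  have n1 : ‖Z - P‖ ≤ 30 := (norm_sub_le _ _).trans (by linarith [bZ Z hZ, bZ P hP])
  have n2 : ‖Z' - P₂‖ ≤ 30 := (norm_sub_le _ _).trans (by linarith [bZ Z' hZ', bZ P₂ m1])
  have d1 := abs_le.1 (abs_dot3_le hd _ n1)
  have d2 := abs_le.1 (abs_dot3_le hd _ n2)
  have d3 := abs_le.1 (abs_dot3_le hd _ (bZ P hP))
  have hz : dot3 (P + t • (Z - P) - (P₂ + t' • (Z' - P₂))) d = 0 := by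
    rw [hcon]
    have : dot3 (r • u) d = r * dot3 u d := by simp [dot3]; ring
    rw [this, hdu, mul_zero]
  have hexp : dot3 (P + t • (Z - P) - (P₂ + t' • (Z' - P₂))) d =
      t * dot3 (Z - P) d - t' * dot3 (Z' - P₂) d + (1 - c) * dot3 P d
        - c * (d 0 ^ 2 + d 1 ^ 2 + d 2 ^ 2) - c * a₁ * dot3 u d := by
    simp [dot3, hP₂]; ring
  rw [hexp, hdu, mul_zero, sub_zero] at hz
  have hsq : s ^ 2 ≤ 3 * (d 0 ^ 2 + d 1 ^ 2 + d 2 ^ 2) := by
    rw [← hd, ← sq_abs (d 0), ← sq_abs (d 1), ← sq_abs (d 2)]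
    nlinarith [sq_nonneg (|d 0| - |d 1|), sq_nonneg (|d 1| - |d 2|), sq_nonneg (|d 0| - |d 2|)]
  have e3 : t * dot3 (Z - P) d ≤ 3 * (s / 1000) * (30 * s) :=
    (mul_le_mul_of_nonneg_left d1.2 ht.1).trans (mul_le_mul_of_nonneg_right ht.2 (by positivity))
  have e4 : -(3 * (s / 1000) * (30 * s)) ≤ t' * dot3 (Z' - P₂) d := by
    have a1 := mul_le_mul_of_nonneg_left d2.1 ht'.1
    have a2 := mul_le_mul_of_nonneg_right ht'.2 (show (0:ℝ) ≤ 30 * s by positivity)
    linarith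
  have e5 : (1 - c) * dot3 P d ≤ s / 2000 * (15 * s) :=
    (mul_le_mul_of_nonneg_left d3.2 (by linarith)).trans
      (mul_le_mul_of_nonneg_right (by linarith) (by positivity))
  have e6 : (999/1000) * (s ^ 2 / 3) ≤ c * (d 0 ^ 2 + d 1 ^ 2 + d 2 ^ 2) :=
    mul_le_mul (by linarith) (by linarith) (by positivity) c0.le
  linarith [sq_pos_of_pos hs]

end Vale.Agent.P243
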