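import Mathlib
import Vale.Agent.P243.Shell
import Vale.Agent.P243.Geometry
import Vale.Agent.P243.Gain

/- Assembly: cylinder coverings have relative area at least 1/3 + 1/10^40. -/

namespace Vale.Agent.P243

open MeasureTheory Set Metric
open scoped ENNReal

abbrev E3 := EuclideanSpace ℝ (Fin 3)

lemma exists_normalisation (K : Set E3) (hc : Convex ℝ K) (hK : IsCompact K)
    (hi : (interior K).Nonempty) :
    ∃ (c : E3) (M : E3 ≃ₗ[ℝ] R3),
      (∀ X : R3, ‖X‖ ≤ 1 → c + M.symm X ∈ K) ∧ ∀ x ∈ K, ‖M (x - c)‖ ≤ 15 := by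
  classical
  set b0 := (EuclideanSpace.basisFun (Fin 3) ℝ).toBasis with hb0
  set f : E3 × (Fin 3 → E3) → ℝ := fun v => |b0.det fun i => v.2 i - v.1| with hf
  have hfc : Continuous f := by
    simp only [hf, Module.Basis.det_apply, Matrix.det_fin_three, Module.Basis.toMatrix_apply]
    simp only [hb0, OrthonormalBasis.coe_toBasis_repr_apply, EuclideanSpace.basisFun_repr]
    fun_prop
  obtain ⟨p, hp⟩ := hi
  obtain ⟨r, hr, hball⟩ := Metric.mem_nhds_iff.1 (mem_interior_iff_mem_nhds.1 hp)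
  have hne : (K ×ˢ (univ.pi fun _ : Fin 3 => K)).Nonempty :=
    ⟨(p, fun _ => p), hball (mem_ball_self hr), fun _ _ => hball (mem_ball_self hr)⟩
  obtain ⟨⟨v0, v⟩, ⟨hv0, hv⟩, hmax⟩ :=
    (hK.prod (isCompact_univ_pi fun _ : Fin 3 => hK)).exists_isMaxOn hne hfc.continuousOn
  rw [isMaxOn_iff] at hmax
  have hpos : 0 < f (v0, v) := by
    have hm : (p, fun i => p + (r/2) • b0 i) ∈ K ×ˢ (univ.pi fun _ : Fin 3 => K) := by
      refine ⟨hball (mem_ball_self hr), fun i _ => hball ?_⟩
      simp [mem_ball, dist_eq_norm, hb0, norm_smul, abs_of_pos hr]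
      linarith
    refine lt_of_lt_of_le ?_ (hmax _ hm)
    simp only [hf, add_sub_cancel_left]
    rw [AlternatingMap.map_smul_univ b0.det (fun _ : Fin 3 => r/2) (fun i => b0 i)]
    rw [show (fun i => b0 i) = ⇑b0 from rfl, b0.det_self]
    simp [hr.ne']
  have hdet : b0.det (fun i => v i - v0) ≠ 0 := abs_pos.1 hpos
  obtain ⟨hli, hsp⟩ := (b0.is_basis_iff_det).2 (isUnit_iff_ne_zero.2 hdet)
  set B := Module.Basis.mk hli hsp.ge with hB
  have hBv : ∀ i, B i = v i - v0 := fun i => by simp [hB]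
  have hcoord : ∀ x ∈ K, ∀ i, |B.equivFun (x - v0) i| ≤ 1 := by
    intro x hx i
    have hm : (v0, Function.update v i x) ∈ K ×ˢ (univ.pi fun _ : Fin 3 => K) := by
      refine ⟨hv0, fun k hk => ?_⟩
      by_cases h : k = i
      · subst h; simpa using hx
      · simpa [h] using hv k hk
    have h := hmax _ hm
    simp only [hf] at h
    have e1 : (fun k => Function.update v i x k - v0) =
        Function.update (fun k => v k - v0) i (x - v0) := by
      funext k; by_cases hk : k = i
      · subst hk; simp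
      · simp [hk]
    have e2 : b0.det (Function.update (fun k => v k - v0) i (x - v0)) =
        B.equivFun (x - v0) i * b0.det (fun k => v k - v0) := by
      conv_lhs => rw [← B.sum_equivFun (x - v0)]
      rw [AlternatingMap.map_update_sum, Finset.sum_eq_single i]
      · rw [hBv, AlternatingMap.map_update_smul, smul_eq_mul]
        congr 1
        simp
      · intro k _ hk
        rw [AlternatingMap.map_update_smul, hBv,
          AlternatingMap.map_update_self _ _ (Ne.symm hk), smul_zero]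
      · simp
    rw [e1, e2, abs_mul] at h
    by_contra hcon
    nlinarith [abs_pos.2 hdet, not_le.1 hcon]
  refine ⟨v0 + B.equivFun.symm (fun _ => 1/4),
    B.equivFun.trans (LinearEquiv.smulOfNeZero ℝ R3 12 (by norm_num)), ?_, ?_⟩
  · intro X hX
    set m : R3 := fun i => 1/4 + X i / 12 with hm
    have e : v0 + B.equivFun.symm (fun _ => 1/4) +
        (B.equivFun.trans (LinearEquiv.smulOfNeZero ℝ R3 12 (by norm_num))).symm X =
        (1 - m 0 - m 1 - m 2) • v0 + m 0 • v 0 + m 1 • v 1 + m 2 • v 2 := by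
      have e' : (B.equivFun.trans (LinearEquiv.smulOfNeZero ℝ R3 12 (by norm_num))).symm X =
          B.equivFun.symm ((1/12 : ℝ) • X) := by
        apply (B.equivFun.trans (LinearEquiv.smulOfNeZero ℝ R3 12 (by norm_num))).injective
        rw [LinearEquiv.apply_symm_apply, LinearEquiv.trans_apply, LinearEquiv.apply_symm_apply]
        simp [smul_smul]
      rw [e', add_assoc, ← map_add, Module.Basis.equivFun_symm_apply, Fin.sum_univ_three]
      simp only [hBv, hm, Pi.add_apply, Pi.smul_apply, smul_eq_mul]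
      module
    rw [e]
    have hb : ∀ i, -1 ≤ X i ∧ X i ≤ 1 := fun i =>
      abs_le.1 (Real.norm_eq_abs _ ▸ (norm_le_pi_norm X i).trans hX)
    have := hc.sum_mem (t := (Finset.univ : Finset (Fin 4)))
      (w := ![1 - m 0 - m 1 - m 2, m 0, m 1, m 2]) (z := ![v0, v 0, v 1, v 2])
      (fun i _ => by
        fin_cases i <;> simp [hm] <;> linarith [hb 0, hb 1, hb 2])
      (by simp [Fin.sum_univ_four]; ring)
      (fun i _ => by
        fin_cases i <;> simp [hv0, hv 0 (mem_univ _), hv 1 (mem_univ _), hv 2 (mem_univ _)])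
    simpa [Fin.sum_univ_four] using this
  · intro x hx
    refine (pi_norm_le_iff_of_nonneg (by norm_num)).2 fun i => ?_
    have e : (B.equivFun.trans (LinearEquiv.smulOfNeZero ℝ R3 12 (by norm_num)))
        (x - (v0 + B.equivFun.symm (fun _ => 1/4))) i = 12 * (B.equivFun (x - v0) i - 1/4) := by
      rw [← sub_sub, LinearEquiv.trans_apply, map_sub, LinearEquiv.apply_symm_apply]
      simp
    rw [e, Real.norm_eq_abs, abs_le]
    obtain ⟨h1, h2⟩ := abs_le.1 (hcoord x hx i)
    constructor <;> linarith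

lemma gaugeLike_gauge {K : Set R3} (hc : Convex ℝ K) (hin : closedBall 0 1 ⊆ K)
    (hout : K ⊆ closedBall 0 15) : GaugeLike (gauge K) := by
  have habs : Absorbent ℝ K :=
    absorbent_nhds_zero (Filter.mem_of_superset (closedBall_mem_nhds 0 one_pos) hin)
  refine ⟨⟨convex_univ, fun x _ y _ a b ha hb _ => ?_⟩, fun c h x => ?_, fun x y => ?_, fun x => ?_⟩
  · refine (gauge_add_le hc habs _ _).trans ?_
    rw [gauge_smul_of_nonneg ha, gauge_smul_of_nonneg hb]
  · simp [gauge_smul_of_nonneg h]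
  · have := (hc.lipschitzWith_gauge (r := 1) one_pos
      (by simpa using ball_subset_closedBall.trans hin)).dist_le_mul x y
    simpa [Real.dist_eq, dist_eq_norm] using this
  · have h := gauge_mono habs hout x
    rw [gauge_closedBall (by norm_num)] at h
    linarith

lemma measure_affine_preimage (c : E3) (M : E3 ≃ₗ[ℝ] R3) :
    ∃ κ : ℝ≥0∞, κ ≠ 0 ∧ κ ≠ ⊤ ∧ ∀ S : Set R3, MeasurableSet S →
      volume ((fun x => M (x - c)) ⁻¹' S) = κ * volume S := by
  set N : E3 ≃ₗ[ℝ] E3 := M.trans (WithLp.linearEquiv 2 ℝ R3).symm with hN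
  have hd : LinearMap.det (N.symm : E3 →ₗ[ℝ] E3) ≠ 0 :=
    (LinearEquiv.isUnit_det' N.symm).ne_zero
  refine ⟨ENNReal.ofReal |LinearMap.det (N.symm : E3 →ₗ[ℝ] E3)|, ?_, ENNReal.ofReal_ne_top, ?_⟩
  · simpa using hd
  intro S hS
  have h1 : (fun x => M (x - c)) ⁻¹' S = (fun x => x + -c) ⁻¹' (N ⁻¹' ((WithLp.ofLp) ⁻¹' S)) := by
    ext x; simp [hN, sub_eq_add_neg]
  rw [h1, measure_preimage_add_right, Measure.addHaar_preimage_linearEquiv,
    (PiLp.volume_preserving_ofLp (Fin 3)).measure_preimage hS.nullMeasurableSet]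

/-- Chart along the direction `u`. -/
noncomputable def chart (u : E3) : ((ℝ ∙ u)ᗮ : Submodule ℝ E3) × ℝ →ₗ[ℝ] E3 where
  toFun p := (p.1 : E3) + p.2 • u
  map_add' p q := by simp [add_smul]; abel
  map_smul' a p := by simp [smul_add, smul_smul]

lemma chart_measurePreserving {u : E3} (hu : ‖u‖ = 1) :
    MeasurePreserving (chart u) := by
  set e := LinearIsometryEquiv.toSpanUnitSingleton (𝕜 := ℝ) u hu
  have h1 := (MeasurePreserving.id (volume : Measure ((ℝ ∙ u)ᗮ : Submodule ℝ E3))).prod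
    e.measurePreserving
  have h2 : MeasurePreserving (fun p : ((ℝ ∙ u)ᗮ : Submodule ℝ E3) × ℝ =>
      (ℝ ∙ u).orthogonalDecomposition.symm
        (WithLp.toLp 2 ((Prod.map id e p).swap))) :=
    (ℝ ∙ u).orthogonalDecomposition.symm.measurePreserving.comp
      ((WithLp.volume_preserving_toLp (ℝ ∙ u) ((ℝ ∙ u)ᗮ : Submodule ℝ E3)).comp
        (Measure.measurePreserving_swap.comp h1))
  convert h2 using 1
  funext p
  simp [chart, Submodule.orthogonalDecomposition_symm_apply, e, add_comm]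

lemma proj_chart {u : E3} (p : ((ℝ ∙ u)ᗮ : Submodule ℝ E3) × ℝ) :
    (ℝ ∙ u)ᗮ.orthogonalProjectionOnto (chart u p) = p.1 := by
  have : (ℝ ∙ u)ᗮ.orthogonalProjectionOnto u = 0 :=
    Submodule.orthogonalProjectionOnto_apply_of_mem_orthogonal
      (Submodule.le_orthogonal_orthogonal _ (Submodule.mem_span_singleton_self u))
  simp [chart, this, Submodule.orthogonalProjectionOnto_mem_subspace_eq_self]

lemma chart_surj {u : E3} (x : E3) :
    ∃ p : ((ℝ ∙ u)ᗮ : Submodule ℝ E3) × ℝ,
      chart u p = x ∧ p.1 = (ℝ ∙ u)ᗮ.orthogonalProjectionOnto x := by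
  have hmem : x - ((ℝ ∙ u)ᗮ.orthogonalProjectionOnto x : E3) ∈ (ℝ ∙ u) := by
    have h := Submodule.starProjection_add_starProjection_orthogonal (K := (ℝ ∙ u)) x
    rw [Submodule.starProjection_apply, Submodule.starProjection_apply] at h
    nth_rewrite 1 [← h]
    simp
  obtain ⟨r, hr⟩ := Submodule.mem_span_singleton.1 hmem
  exact ⟨(_, r), by simp [chart, hr], rfl⟩

/-- Removal of the bad set shortens every near-extremal line. -/
lemma line_bound {K : Set E3} (hc : Convex ℝ K) (hK : IsCompact K)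
    {c : E3} {M : E3 ≃ₗ[ℝ] R3} {j : R3 → ℝ} (hj : GaugeLike j)
    (hKj : ∀ x, x ∈ K ↔ j (M (x - c)) ≤ 1)
    {s a ε : ℝ} (hs : 0 < s) (hs1 : s ≤ 1) (ha : a = (s / 1000) ^ 3) (hε : ε = 31 * a)
    {u : E3} (hu : ‖u‖ = 1) (y : ((ℝ ∙ u)ᗮ : Submodule ℝ E3)) :
    volume (Prod.mk y ⁻¹' (chart u ⁻¹' (K \ (fun x => M (x - c)) ⁻¹' badSet j s ε))) *
      volume ((ℝ ∙ u)ᗮ.orthogonalProjectionOnto '' K) ≤
      ENNReal.ofReal (3 * (1 - a)) * volume K := by
  set T : E3 → R3 := fun x => M (x - c) with hT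
  set K' := chart u ⁻¹' K with hK'
  set W := badSet j s ε with hW
  set A := volume ((ℝ ∙ u)ᗮ.orthogonalProjectionOnto '' K) with hA
  have hu0 : u ≠ 0 := fun h => by simp [h] at hu
  have hinj : Function.Injective (chart u) := by
    intro p q hpq
    have h1 : p.1 = q.1 := by rw [← proj_chart p, ← proj_chart q, hpq]
    refine Prod.ext h1 ?_
    have h2 : p.2 • u = q.2 • u := by simpa [chart, h1] using hpq
    exact smul_left_injective ℝ hu0 h2
  have hK'c : IsCompact K' := (LinearMap.isClosedEmbedding_of_injective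
    (LinearMap.ker_eq_bot.2 hinj)).isCompact_preimage hK
  have hK'v : Convex ℝ K' := hc.linear_preimage _
  have hP : Prod.fst '' K' = (ℝ ∙ u)ᗮ.orthogonalProjectionOnto '' K := by
    ext z; constructor
    · rintro ⟨p, hp, rfl⟩; exact ⟨chart u p, hp, proj_chart p⟩
    · rintro ⟨x, hx, rfl⟩
      obtain ⟨p, hp, hp1⟩ := chart_surj (u := u) x
      exact ⟨p, by simpa [hK', hp] using hx, hp1⟩
  have hV : (volume : Measure ((ℝ ∙ u)ᗮ : Submodule ℝ E3)).prod volume K' = volume K :=
    (chart_measurePreserving hu).measure_preimage hK.measurableSet.nullMeasurableSet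
  have hdim : Module.finrank ℝ ((ℝ ∙ u)ᗮ : Submodule ℝ E3) = 2 := by
    have : Fact (Module.finrank ℝ E3 = 2 + 1) := ⟨by simp⟩
    exact Submodule.finrank_orthogonal_span_singleton hu0
  have ha0 : 0 < a := by rw [ha]; positivity
  have has : a ≤ s / 8000 := by
    have h1 : s / 1000 ≤ 1/1000 := by linarith
    have h2 : (s / 1000) ^ 2 ≤ 1/8 := by nlinarith
    rw [ha]; nlinarith
  set Sl : Set ℝ := Prod.mk y ⁻¹' K' with hSl
  rcases Sl.eq_empty_or_nonempty with he | hne
  · have : Prod.mk y ⁻¹' (chart u ⁻¹' (K \ T ⁻¹' W)) = ∅ :=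
      subset_empty_iff.1 (he ▸ fun r hr => hr.1)
    rw [this, measure_empty, zero_mul]; exact zero_le
  have hSc : IsCompact Sl := by
    have hcl : IsClosed Sl := hK'c.isClosed.preimage (Continuous.prodMk_right y)
    exact (hK'c.image continuous_snd).of_isClosed_subset hcl (fun r hr => ⟨(y, r), hr, rfl⟩)
  set lo := sInf Sl
  set hi := sSup Sl
  have hlo : lo ∈ Sl := hSc.sInf_mem hne
  have hhi : hi ∈ Sl := hSc.sSup_mem hne
  have hsub : Sl ⊆ Icc lo hi := fun r hr =>
    ⟨csInf_le hSc.bddBelow hr, le_csSup hSc.bddAbove hr⟩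
  rcases (csInf_le hSc.bddBelow hhi : lo ≤ hi).eq_or_lt with heq | hlt
  · have : volume (Prod.mk y ⁻¹' (chart u ⁻¹' (K \ T ⁻¹' W))) = 0 := by
      refine measure_mono_null (fun r hr => hsub (show r ∈ Sl from hr.1)) ?_
      rw [Real.volume_Icc]; exact ENNReal.ofReal_eq_zero.2 (by linarith)
    rw [this, zero_mul]; exact zero_le
  set L := hi - lo with hLdef
  have hL : 0 < L := sub_pos.2 hlt
  set P : R3 := T (chart u (y, lo)) with hPdef
  set U : R3 := L • M u with hU
  have hpar : ∀ t : ℝ, T (chart u (y, lo + t * L)) = P + t • U := by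
    intro t
    have : chart u (y, lo + t * L) - c = (chart u (y, lo) - c) + (t * L) • u := by
      simp [chart, add_smul]; abel
    simp only [hT, hPdef, hU]
    rw [this, map_add, map_smul, smul_smul]
  have hQ : T (chart u (y, hi)) = P + U := by
    have := hpar 1; rwa [one_mul, one_smul, hLdef, add_sub_cancel] at this
  have hjP : j P ≤ 1 := (hKj _).1 hlo
  have hjQ : j (P + U) ≤ 1 := hQ ▸ (hKj _).1 hhi
  have hUn : ‖U‖ ≤ 30 := by
    have h1 : ‖P‖ ≤ 15 := (hj.inBox P).trans (by linarith)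
    have h2 : ‖P + U‖ ≤ 15 := (hj.inBox _).trans (by linarith)
    calc ‖U‖ = ‖(P + U) - P‖ := by rw [add_sub_cancel_left]
      _ ≤ ‖P + U‖ + ‖P‖ := norm_sub_le _ _
      _ ≤ 30 := by linarith
  have endP : 1 ≤ j P := by
    by_contra hlt'
    have hopen : IsOpen {t : ℝ | j (P + t • U) < 1} :=
      isOpen_lt (hj.continuous.comp (by fun_prop)) continuous_const
    obtain ⟨δ, hδ, hδb⟩ := Metric.isOpen_iff.1 hopen 0 (by simpa using not_le.1 hlt')
    have hm : j (P + (-(δ/2)) • U) < 1 :=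
      hδb (by simp [mem_ball, abs_of_pos hδ]; linarith)
    have hmem : lo + -(δ/2) * L ∈ Sl := (hKj _).2 (by
      show j (T (chart u (y, lo + -(δ/2) * L))) ≤ 1
      rw [hpar]; exact hm.le)
    have := (hsub hmem).1
    nlinarith
  have endQ : 1 ≤ j (P + U) := by
    by_contra hlt'
    have hopen : IsOpen {t : ℝ | j (P + t • U) < 1} :=
      isOpen_lt (hj.continuous.comp (by fun_prop)) continuous_const
    obtain ⟨δ, hδ, hδb⟩ := Metric.isOpen_iff.1 hopen 1 (by simpa using not_le.1 hlt')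
    have hm : j (P + (1 + δ/2) • U) < 1 :=
      hδb (by simp [mem_ball, abs_of_pos hδ]; linarith)
    have hmem : lo + (1 + δ/2) * L ∈ Sl := (hKj _).2 (by
      show j (T (chart u (y, lo + (1 + δ/2) * L))) ≤ 1
      rw [hpar]; exact hm.le)
    have := (hsub hmem).2
    nlinarith
  have inSeg : ∀ θ ∈ Icc (0:ℝ) 1, j (P + θ • U) ≤ 1 := by
    intro θ hθ
    have hm : (y, lo + θ * L) ∈ K' := by
      have h := hK'v (show (y, lo) ∈ K' from hlo) (show (y, hi) ∈ K' from hhi)
        (sub_nonneg.2 hθ.2) hθ.1 (by ring)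
      simp only [Prod.smul_mk, Prod.mk_add_mk, smul_eq_mul, ← add_smul, sub_add_cancel,
        one_smul] at h
      convert h using 2
      rw [hLdef]; ring
    exact hpar θ ▸ (hKj _).1 hm
  have nearP : ∀ t ∈ Icc 0 a, P + t • U ∈ shell j ε := by
    intro t ht
    refine ⟨?_, inSeg t ⟨ht.1, by linarith [ht.2]⟩⟩
    have h := (abs_le.1 (hj.lip (P + t • U) P)).1
    rw [add_sub_cancel_left, norm_smul, Real.norm_eq_abs, abs_of_nonneg ht.1] at h
    have : t * ‖U‖ ≤ a * 30 := mul_le_mul ht.2 hUn (norm_nonneg _) ha0.le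
    linarith
  have nearQ : ∀ t ∈ Icc 0 a, P + (1 - t) • U ∈ shell j ε := by
    intro t ht
    refine ⟨?_, inSeg _ ⟨by linarith [ht.2], by linarith [ht.1]⟩⟩
    have h := (abs_le.1 (hj.lip (P + (1 - t) • U) (P + U))).1
    rw [show P + (1 - t) • U - (P + U) = (-t) • U by module, norm_smul, Real.norm_eq_abs,
      abs_neg, abs_of_nonneg ht.1] at h
    have : t * ‖U‖ ≤ a * 30 := mul_le_mul ht.2 hUn (norm_nonneg _) ha0.le
    linarith
  have hy0 : (y, lo) ∈ K' := hlo
  have hy1 : (y, lo + L) ∈ K' := by rw [hLdef, add_sub_cancel]; exact hhi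
  have cone := cone_bound (volume : Measure ((ℝ ∙ u)ᗮ : Submodule ℝ E3)) hK'c hK'v hdim hy0 hy1 hL
  rw [hV, hP] at cone
  by_cases hA' : ∀ t ∈ Icc 0 a, P + t • U ∈ W
  · have hs' : Prod.mk y ⁻¹' (chart u ⁻¹' (K \ T ⁻¹' W)) ⊆ Icc (lo + a * L) hi := by
      intro r hr
      obtain ⟨r1, r2⟩ := hsub (show r ∈ Sl from hr.1)
      refine ⟨?_, r2⟩
      by_contra hcon
      refine hr.2 ?_
      show T (chart u (y, r)) ∈ W
      have e : r = lo + (r - lo) / L * L := by rw [div_mul_cancel₀ _ hL.ne']; ring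
      rw [e, hpar]
      exact hA' _ ⟨div_nonneg (by linarith) hL.le,
        by rw [div_le_iff₀ hL]; linarith [not_le.1 hcon]⟩
    calc _ ≤ ENNReal.ofReal ((1 - a) * L) * A := by
          gcongr
          refine (measure_mono hs').trans ?_
          rw [Real.volume_Icc]; exact ENNReal.ofReal_le_ofReal (by linarith)
      _ = ENNReal.ofReal (3 * (1 - a)) * (ENNReal.ofReal (L / 3) * A) := by
          rw [← mul_assoc, ← ENNReal.ofReal_mul (by linarith)]; ring_nf
      _ ≤ _ := by gcongr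
  by_cases hB' : ∀ t ∈ Icc 0 a, P + (1 - t) • U ∈ W
  · have hs' : Prod.mk y ⁻¹' (chart u ⁻¹' (K \ T ⁻¹' W)) ⊆ Icc lo (hi - a * L) := by
      intro r hr
      obtain ⟨r1, r2⟩ := hsub (show r ∈ Sl from hr.1)
      refine ⟨r1, ?_⟩
      by_contra hcon
      refine hr.2 ?_
      show T (chart u (y, r)) ∈ W
      have e : r = lo + (1 - (hi - r) / L) * L := by
        rw [sub_mul, one_mul, div_mul_cancel₀ _ hL.ne', hLdef]; ring
      rw [e, hpar]
      exact hB' _ ⟨div_nonneg (by linarith) hL.le,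
        by rw [div_le_iff₀ hL]; linarith [not_le.1 hcon]⟩
    calc _ ≤ ENNReal.ofReal ((1 - a) * L) * A := by
          gcongr
          refine (measure_mono hs').trans ?_
          rw [Real.volume_Icc]; exact ENNReal.ofReal_le_ofReal (by linarith)
      _ = ENNReal.ofReal (3 * (1 - a)) * (ENNReal.ofReal (L / 3) * A) := by
          rw [← mul_assoc, ← ENNReal.ofReal_mul (by linarith)]; ring_nf
      _ ≤ _ := by gcongr
  push Not at hA' hB'
  obtain ⟨a₁, h1, g1⟩ := hA'
  obtain ⟨a₂, h2, g2⟩ := hB'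
  have b1 : bend j s (P + a₁ • U) ≤ s / 1000 := not_lt.1 fun h => g1 ⟨nearP a₁ h1, h⟩
  have b2 : bend j s (P + (1 - a₂) • U) ≤ s / 1000 := not_lt.1 fun h => g2 ⟨nearQ a₂ h2, h⟩
  obtain ⟨P₂, ρ, m1, m2, hρ, hρ1, hsep⟩ := flat_gain hj hs hs1 has P U hjP hjQ h1 h2 b1 b2
  obtain ⟨⟨y₂, c₂⟩, hc₂, -⟩ := chart_surj (u := u) (c + M.symm P₂)
  have eP2 : T (chart u (y₂, c₂)) = P₂ := by simp [hT, hc₂]
  have hz0 : (y₂, c₂) ∈ K' := (hKj _).2 (by show j (T (chart u (y₂, c₂))) ≤ 1; rw [eP2]; exact m1)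
  have hz1 : (y₂, c₂ + ρ * L) ∈ K' := (hKj _).2 (by
    have e : T (chart u (y₂, c₂ + ρ * L)) = P₂ + ρ • U := by
      have : chart u (y₂, c₂ + ρ * L) - c = (chart u (y₂, c₂) - c) + (ρ * L) • u := by
        simp [chart, add_smul]; abel
      rw [← eP2]; simp only [hT, hU]
      rw [this, map_add, map_smul, smul_smul]
    show j (T (chart u (y₂, c₂ + ρ * L))) ≤ 1
    rw [e]; exact m2)
  have gain := two_chord_bound (volume : Measure ((ℝ ∙ u)ᗮ : Submodule ℝ E3)) hK'c hK'v hdim hy0 hy1 hL hz0 hz1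
    (σ := s / 1000) (by positivity) (by linarith) hρ hρ1 (by
      rintro _ ⟨⟨z, hz'⟩, hzK, rfl⟩ _ ⟨⟨z', hz''⟩, hzK', rfl⟩ t ht t' ht' heq
      set q : ((ℝ ∙ u)ᗮ : Submodule ℝ E3) × ℝ := (y, lo) + t • ((z, hz') - (y, lo)) -
        ((y₂, c₂) + t' • ((z', hz'') - (y₂, c₂))) with hq
      have hq1 : q.1 = 0 := by simp [hq, heq]
      have hMq : M (chart u q) = P + t • (T (chart u (z, hz')) - P) -
          (P₂ + t' • (T (chart u (z', hz'')) - P₂)) := by
        rw [← eP2, hPdef, hq]
        simp only [hT, map_add, map_sub, map_smul]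
        module
      have hMq' : M (chart u q) = (q.2 / L) • U := by
        have : chart u q = q.2 • u := by simp [chart, hq1]
        rw [this, map_smul, hU, smul_smul, div_mul_cancel₀ _ hL.ne']
      exact hsep _ _ ((hKj _).1 hzK) ((hKj _).1 hzK') t ht t' ht' (q.2 / L)
        (hMq ▸ hMq'))
  rw [hV, hP] at gain
  calc _ ≤ ENNReal.ofReal L * A := by
        gcongr
        refine (measure_mono fun r hr => hsub (show r ∈ Sl from hr.1)).trans ?_
        rw [Real.volume_Icc]
    _ ≤ ENNReal.ofReal (3 * (1 - a)) * (ENNReal.ofReal (L * (1/3 + (s / 1000) ^ 3)) * A) := by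
        rw [← mul_assoc, ← ENNReal.ofReal_mul (by linarith)]
        gcongr
        rw [← ha]
        nlinarith [mul_nonneg hL.le (mul_nonneg ha0.le (show 0 ≤ 2 - 3 * a by linarith))]
    _ ≤ _ := by gcongr

theorem cylinder_bound (K : Set E3) (hc : Convex ℝ K) (hK : IsCompact K)
    (hi : (interior K).Nonempty) {ι : Type*} [Fintype ι] (u : ι → E3)
    (B : ∀ i, Set ((ℝ ∙ u i)ᗮ : Submodule ℝ E3)) (hu : ∀ i, ‖u i‖ = 1)
    (hcov : K ⊆ ⋃ i, {x | (ℝ ∙ u i)ᗮ.orthogonalProjectionOnto x ∈ B i}) :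
    ENNReal.ofReal (1/3 + 1/10^40) ≤
      ∑ i, volume (B i) / volume ((ℝ ∙ u i)ᗮ.orthogonalProjectionOnto '' K) := by
  obtain ⟨c, M, hin, hout⟩ := exists_normalisation K hc hK hi
  set T : E3 → R3 := fun x => M (x - c) with hT
  set N : Set R3 := T '' K with hN
  have hTi : Function.Injective T := fun a b h => by simpa [hT] using M.injective h
  have hTc : Continuous T := by
    exact (LinearMap.continuous_of_finiteDimensional (M : E3 →ₗ[ℝ] R3)).comp
      (continuous_id.sub continuous_const)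
  have hmem : ∀ X, X ∈ N ↔ c + M.symm X ∈ K := by
    intro X; constructor
    · rintro ⟨x, hx, rfl⟩; simpa [hT] using hx
    · intro h; exact ⟨_, h, by simp [hT]⟩
  have hNc : IsCompact N := hK.image hTc
  have hNv : Convex ℝ N := by
    intro X hX Y hY p q hp hq hpq
    rw [hmem] at hX hY ⊢
    convert hc hX hY hp hq hpq using 1
    simp only [map_add, map_smul, smul_add]
    rw [show c = p • c + q • c by rw [← add_smul, hpq, one_smul]]
    rw [show q = 1 - p by linarith]
    module
  have hball : closedBall 0 1 ⊆ N := fun X hX => (hmem X).2 (hin X (by simpa using hX))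
  have hbig : N ⊆ closedBall 0 15 := by
    rintro _ ⟨x, hx, rfl⟩; simpa [hT] using hout x hx
  have h0 : N ∈ nhds (0 : R3) := Filter.mem_of_superset (closedBall_mem_nhds 0 one_pos) hball
  set j := gauge N
  have hj : GaugeLike j := gaugeLike_gauge hNv hball hbig
  have hKj : ∀ x, x ∈ K ↔ j (T x) ≤ 1 := by
    intro x
    rw [gauge_le_one_iff_mem_closure hNv h0, hNc.isClosed.closure_eq, hN,
      hTi.mem_set_image]
  set s : ℝ := 1/10^10 with hs
  set a : ℝ := (s / 1000) ^ 3 with ha
  set ε : ℝ := 31 * a with hε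
  set W0 := T ⁻¹' badSet j s ε with hW0
  have hW0m : MeasurableSet W0 := hTc.measurable (measurableSet_badSet hj s ε)
  obtain ⟨κ, hκ0, hκt, hκ⟩ := measure_affine_preimage c M
  have hV : volume K = κ * volume N := by
    rw [← hκ N hNc.measurableSet]; congr 1; exact (hTi.preimage_image K).symm
  have h8 : ENNReal.ofReal 8 ≤ volume N := by
    refine le_trans (le_of_eq ?_) (measure_mono hball)
    rw [show closedBall (0 : R3) 1 = Icc (-1) 1 by
      ext X; simp [pi_norm_le_iff_of_nonneg, abs_le, Pi.le_def, forall_and]]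
    rw [Real.volume_Icc_pi, Fin.prod_univ_three]
    norm_num
  have hWK : volume W0 ≤ ENNReal.ofReal (a / 2) * volume K := by
    have hb := volume_badSet_le hj (s := s) (ε := ε) (by norm_num [hs]) (by norm_num [hs])
      (by norm_num [hε, ha, hs]) (by norm_num [hε, ha, hs])
    rw [hW0, hκ _ (measurableSet_badSet hj s ε), hV]
    calc κ * volume (badSet j s ε) ≤ κ * ENNReal.ofReal (294912000 * ε * s) := by gcongr
      _ ≤ κ * (ENNReal.ofReal (a / 2) * ENNReal.ofReal 8) := by
          rw [← ENNReal.ofReal_mul (by positivity)]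
          exact mul_le_mul' le_rfl (ENNReal.ofReal_le_ofReal (by norm_num [hε, ha, hs]))
      _ ≤ _ := by rw [← mul_assoc, ← mul_assoc, mul_comm κ]; gcongr
  have hKne : volume K ≠ 0 := (lt_of_lt_of_le (isOpen_interior.measure_pos volume hi) (measure_mono interior_subset)).ne'
  have hKfin : volume K ≠ ⊤ := hK.measure_ne_top
  have hA : ∀ i, volume ((ℝ ∙ u i)ᗮ.orthogonalProjectionOnto '' K) ≠ 0 := by
    intro i
    have hsurj : Function.Surjective (ℝ ∙ u i)ᗮ.orthogonalProjectionOnto := fun z =>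
      ⟨z, Submodule.orthogonalProjectionOnto_mem_subspace_eq_self z⟩
    exact (lt_of_lt_of_le
      ((((ℝ ∙ u i)ᗮ.orthogonalProjectionOnto.isOpenMap hsurj) _ isOpen_interior).measure_pos volume
        (hi.image _)) (measure_mono (image_mono interior_subset))).ne'
  have piece : ∀ i, volume ((K \ W0) ∩
      {x | (ℝ ∙ u i)ᗮ.orthogonalProjectionOnto x ∈ toMeasurable volume (B i)}) ≤
      (volume (B i) / volume ((ℝ ∙ u i)ᗮ.orthogonalProjectionOnto '' K)) *
        (ENNReal.ofReal (3 * (1 - a)) * volume K) := by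
    intro i
    set H : Submodule ℝ E3 := (ℝ ∙ u i)ᗮ
    set A := volume (H.orthogonalProjectionOnto '' K)
    set S := (K \ W0) ∩ {x | H.orthogonalProjectionOnto x ∈ toMeasurable volume (B i)}
    have hSm : MeasurableSet S := (hK.measurableSet.diff hW0m).inter
      (H.orthogonalProjectionOnto.continuous.measurable (measurableSet_toMeasurable _ _))
    rw [← (chart_measurePreserving (hu i)).measure_preimage hSm.nullMeasurableSet,
      show (volume : Measure (H × ℝ)) = (volume : Measure H).prod volume from rfl,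
      Measure.prod_apply ((chart_measurePreserving (hu i)).measurable hSm)]
    have hAt : A ≠ ⊤ := (hK.image H.orthogonalProjectionOnto.continuous).measure_ne_top
    calc ∫⁻ y, volume (Prod.mk y ⁻¹' (chart (u i) ⁻¹' S))
        ≤ ∫⁻ y, (toMeasurable volume (B i)).indicator
            (fun _ => ENNReal.ofReal (3 * (1 - a)) * volume K / A) y := by
          refine lintegral_mono fun y => ?_
          by_cases hy : y ∈ toMeasurable volume (B i)
          · rw [indicator_of_mem hy, ENNReal.le_div_iff_mul_le (Or.inl (hA i)) (Or.inl hAt)]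
            refine le_trans ?_ (line_bound hc hK hj hKj (by norm_num [hs]) (by norm_num [hs])
              ha hε (hu i) y)
            refine mul_le_mul_left ?_ A
            exact measure_mono fun r hr => hr.1
          · rw [indicator_of_notMem hy]
            refine le_of_eq (measure_mono_null (t := (∅ : Set ℝ)) (fun r hr => ?_) measure_empty)
            exact hy (by have h := hr.2; rw [mem_setOf_eq, proj_chart] at h; exact h)
      _ = _ := by
          rw [lintegral_indicator_const (measurableSet_toMeasurable _ _), measure_toMeasurable]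
          simp only [div_eq_mul_inv]; ring
  set R := ∑ i, volume (B i) / volume ((ℝ ∙ u i)ᗮ.orthogonalProjectionOnto '' K)
  have total : volume K ≤ (ENNReal.ofReal (a / 2) + R * ENNReal.ofReal (3 * (1 - a))) * volume K := by
    have hsub : K ⊆ W0 ∪ ⋃ i, ((K \ W0) ∩
        {x | (ℝ ∙ u i)ᗮ.orthogonalProjectionOnto x ∈ toMeasurable volume (B i)}) := by
      intro x hx
      by_cases hw : x ∈ W0
      · exact Or.inl hw
      · obtain ⟨i, hi⟩ := mem_iUnion.1 (hcov hx)
        exact Or.inr (mem_iUnion.2 ⟨i, ⟨hx, hw⟩, subset_toMeasurable _ _ hi⟩)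
    refine (measure_mono hsub).trans ((measure_union_le _ _).trans ?_)
    rw [add_mul, mul_assoc, Finset.sum_mul]
    refine add_le_add hWK ((measure_iUnion_fintype_le _ _).trans ?_)
    exact Finset.sum_le_sum fun i _ => piece i
  have key : 1 ≤ ENNReal.ofReal (a / 2) + R * ENNReal.ofReal (3 * (1 - a)) := by
    have h := total
    nth_rewrite 1 [← one_mul (volume K)] at h
    exact (ENNReal.mul_le_mul_iff_left hKne hKfin).1 h
  by_cases hR : R = ⊤
  · rw [hR]; exact le_top
  have ha1 : a ≤ 1/10 := by norm_num [ha, hs]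
  have key' := ENNReal.toReal_mono (ENNReal.add_ne_top.2 ⟨ENNReal.ofReal_ne_top,
    ENNReal.mul_ne_top hR ENNReal.ofReal_ne_top⟩) key
  rw [ENNReal.toReal_one, ENNReal.toReal_add ENNReal.ofReal_ne_top
    (ENNReal.mul_ne_top hR ENNReal.ofReal_ne_top), ENNReal.toReal_mul,
    ENNReal.toReal_ofReal (show (0:ℝ) ≤ a / 2 by positivity),
    ENNReal.toReal_ofReal (mul_nonneg (by norm_num : (0:ℝ) ≤ 3) (sub_nonneg.2 (ha1.trans (by norm_num))))] at key'
  refine ENNReal.ofReal_le_of_le_toReal ?_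
  have hapos : (6:ℝ) / 10^40 ≤ a := by norm_num [ha, hs]
  nlinarith [ENNReal.toReal_nonneg (a := R)]

end Vale.Agent.P243
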